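import Claimed.Agent.R309.S8.Defs

/-!
# Row 309, package **S8-Ann**: Lemma 8.3 (`ann:system`), existence of an invariant annulus system

Statements: helper209.  OWNER = the seat that claims subtask `S8-Ann`.  Keep the statements verbatim (tell helper209 if one is false or
awkward); helper lemmas with prefix `s8a_`.  Proofs: helper47.  Black box: `S8/Defs.lean` (S8-Basic, in particular `PS.unif_conv`).  ~900 lines.

Construction.  `seed y r s = ((ball y r)ᶜ, closedBall y s)`.  Let `ρ₀ > 0` be such that every `y ∈ L` has `y' ∈ L` with `ρ₀ ≤ dist y' y`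
(`L` has two points at distance `2 ρ₀`).  By `s8a_level` choose for every `i : ℕ` radii `0 < s i < r i / 4`, `r i < min ρ₀ (1/(i+1))` such that every
translate of every `seed y (r i) (s i)`, `y ∈ L`, has a side of diameter `< 1/(i+1)`; choose a finite `N i ⊆ L` with `L ⊆ ⋃ y ∈ N i, ball y (s i / 2)`
(compactness).  `A` = all `(g • σ.1, g • σ.2)`, `σ = seed y (r i) (s i)`, `y ∈ N i`, `g : H`.
* `disj`, `meetL`, `notcover` hold for seeds (`y ∈ σ⁺`; `y' ∈ σ⁻`; the two sides are disjoint closed sets meeting the connected set `L`, so they do not cover it)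
  and pass to translates (`g • ·` is a bijection preserving `L`);  `inv`: `smul_smul`.
* `fin`: given `δ`, levels with `1/(i+1) ≤ δ` contribute nothing; for each of the finitely many other levels and each `y ∈ N i`, `s8a_seed_finite`.
* `chain`: induction on `n`; claim: there are `η > 0` and a list `l` of length `n`, pairwise nested, in `A`, with `F ⊆ σ⁻` and `ball x η ⊆ σ⁺` for all `σ ∈ l`,
  and `ball x η` disjoint from `F`.  Step: take `j` with `r j + s j / 2 < η` and `y ∈ N j` with `dist x y < s j / 2`; `τ = seed y (r j) (s j)` (`g = 1`);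
  `ball y (r j) ⊆ ball x η`, hence `σ⁺ ∪ τ⁻ = univ` for `σ ∈ l` and `F ⊆ τ⁻`; `ball x (s j / 2) ⊆ τ⁺`; new list `l ++ [τ]` (`List.pairwise_append`), new `η = s j / 2`.
-/

set_option autoImplicit false

namespace Claimed.Agent.R309

open Filter Topology Set Metric
open scoped Pointwise

variable (P : PS)

/-- a set all of whose pairs of points are mapped `c`-close has an image of diameter `≤ c`. -/
theorem s8a_diam_smul_le (g : P.H) (S : Set P.Y) (c : ℝ) (hc : 0 ≤ c)
    (h : ∀ y ∈ S, ∀ y' ∈ S, dist (g • y) (g • y') ≤ c) : diam (g • S) ≤ c := by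
  refine diam_le_of_forall_dist_le hc ?_
  rintro _ ⟨y, hy, rfl⟩ _ ⟨y', hy', rfl⟩
  exact h y hy y' hy'

/-- For a pair of sets at distance `≥ 2 r'` (no ball of radius `r'` meets both) all but finitely many translates have a small side.
Proof: `P.unif_conv r' (δ/2)`: for non-exceptional `g` the ball `ball b r'` misses one of the sides, whose image has diameter `≤ δ/2`
(`Metric.diam_le_of_forall_dist_le`). -/
theorem s8a_pair_finite (S₁ S₂ : Set P.Y) (r' δ : ℝ) (hr' : 0 < r') (hδ : 0 < δ)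
    (hsep : ∀ b : P.Y, (∀ y ∈ S₁, r' ≤ dist y b) ∨ (∀ y ∈ S₂, r' ≤ dist y b)) :
    {g : P.H | δ ≤ diam (g • S₁) ∧ δ ≤ diam (g • S₂)}.Finite := by
  refine (P.unif_conv r' (δ / 2) hr' (half_pos hδ)).subset ?_
  rintro g ⟨h1, h2⟩ ⟨b, -, hb⟩
  rcases hsep b with h | h
  · have := s8a_diam_smul_le P g S₁ (δ / 2) (half_pos hδ).le
      fun y hy y' hy' => (hb y y' (h y hy) (h y' hy')).le
    linarith
  · have := s8a_diam_smul_le P g S₂ (δ / 2) (half_pos hδ).le
      fun y hy y' hy' => (hb y y' (h y hy) (h y' hy')).le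
    linarith

/-- the two sides of a seed are far apart. -/
theorem s8a_seed_sep (y : P.Y) (r s : ℝ) (hsr : s ≤ r / 4) (b : P.Y) :
    (∀ u ∈ (ball y r)ᶜ, r / 4 ≤ dist u b) ∨ (∀ u ∈ closedBall y s, r / 4 ≤ dist u b) := by
  by_cases hb : dist b y ≤ r / 2
  · left
    intro u hu
    have hu' : r ≤ dist u y := by simpa [mem_ball, not_lt] using hu
    have h0 : 0 ≤ dist b y := dist_nonneg
    have := dist_triangle u b y
    linarith
  · right
    intro u hu
    have hu' : dist u y ≤ s := hu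
    have := dist_triangle b u y
    rw [dist_comm b u] at this
    push Not at hb
    linarith

/-- special case: seeds -/
theorem s8a_seed_finite (y : P.Y) (r s δ : ℝ) (hs : 0 < s) (hsr : s < r / 4) (hδ : 0 < δ) :
    {g : P.H | δ ≤ diam (g • (ball y r)ᶜ) ∧ δ ≤ diam (g • closedBall y s)}.Finite :=
  s8a_pair_finite P _ _ (r / 4) δ (by linarith) hδ (s8a_seed_sep P y r s hsr.le)

/-- finitely many group elements are uniformly equicontinuous. -/
theorem s8a_equicont (E : Set P.H) (hE : E.Finite) (ε : ℝ) (hε : 0 < ε) :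
    ∃ δ > 0, ∀ g ∈ E, ∀ u v : P.Y, dist u v < δ → dist (g • u) (g • v) < ε := by
  induction E, hE using Set.Finite.induction_on with
  | empty => exact ⟨1, one_pos, fun g hg => absurd hg (Set.notMem_empty g)⟩
  | @insert a E _ _ ih =>
    obtain ⟨δ₁, hδ₁, h₁⟩ := ih
    obtain ⟨δ₂, hδ₂, h₂⟩ := Metric.uniformContinuous_iff.1
      (CompactSpace.uniformContinuous_of_continuous (P.act_cont a)) ε hε
    refine ⟨min δ₁ δ₂, lt_min hδ₁ hδ₂, ?_⟩
    rintro g (rfl | hg) u v huv
    · exact h₂ (lt_of_lt_of_le huv (min_le_right _ _))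
    · exact h₁ g hg u v (lt_of_lt_of_le huv (min_le_left _ _))

/-- one level: radii such that EVERY translate of every seed has a side of diameter `< ε`.
Proof: `r = ρ / 2`; the set `E` of `g` for which some seed side pair `((ball y r)ᶜ, closedBall y (r/4))` is not handled by `unif_conv (r/4) (ε/2)` is finite and does not depend on `y`;
the finitely many maps `g ∈ E` are uniformly continuous (`CompactSpace.uniformContinuous_of_continuous`): choose `s < r/4` with
`dist u v ≤ 2 s → dist (g • u) (g • v) < ε / 2` for `g ∈ E`. -/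
theorem s8a_level (ρ ε : ℝ) (hρ : 0 < ρ) (hε : 0 < ε) :
    ∃ r s : ℝ, 0 < s ∧ s < r / 4 ∧ r < ρ ∧
      ∀ (g : P.H) (y : P.Y), diam (g • (ball y r)ᶜ) < ε ∨ diam (g • closedBall y s) < ε := by
  have hr : 0 < ρ / 2 := half_pos hρ
  have hfin := P.unif_conv (ρ / 2 / 4) (ε / 2) (by positivity) (half_pos hε)
  obtain ⟨δ, hδ, hδE⟩ := s8a_equicont P _ hfin (ε / 2) (half_pos hε)
  refine ⟨ρ / 2, min (ρ / 2 / 8) (δ / 4), lt_min (by positivity) (by positivity), ?_, by linarith, ?_⟩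
  · exact lt_of_le_of_lt (min_le_left _ _) (by linarith)
  intro g y
  by_cases hg : g ∈ {g : P.H | ¬ ∃ b ∈ P.L, ∀ y y' : P.Y, ρ / 2 / 4 ≤ dist y b → ρ / 2 / 4 ≤ dist y' b →
      dist (g • y) (g • y') < ε / 2}
  · right
    have := s8a_diam_smul_le P g (closedBall y (min (ρ / 2 / 8) (δ / 4))) (ε / 2) (half_pos hε).le (by
      intro u hu v hv
      refine (hδE g hg u v ?_).le
      have hu' : dist u y ≤ δ / 4 := le_trans hu (min_le_right _ _)
      have hv' : dist v y ≤ δ / 4 := le_trans hv (min_le_right _ _)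
      have := dist_triangle_right u v y
      linarith)
    linarith
  · have hg' : ∃ b ∈ P.L, ∀ y y' : P.Y, ρ / 2 / 4 ≤ dist y b → ρ / 2 / 4 ≤ dist y' b →
        dist (g • y) (g • y') < ε / 2 := by
      by_contra hc
      exact hg hc
    obtain ⟨b, -, hb⟩ := hg'
    rcases s8a_seed_sep P y (ρ / 2) (min (ρ / 2 / 8) (δ / 4))
      (le_trans (min_le_left _ _) (by linarith)) b with h | h
    · left
      have := s8a_diam_smul_le P g _ (ε / 2) (half_pos hε).le
        fun u hu v hv => (hb u v (h u hu) (h v hv)).le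
      linarith
    · right
      have := s8a_diam_smul_le P g _ (ε / 2) (half_pos hε).le
        fun u hu v hv => (hb u v (h u hu) (h v hv)).le
      linarith

/-- every point is far from some point of `L`. -/
theorem s8a_exists_far : ∃ ρ₀ : ℝ, 0 < ρ₀ ∧ ∀ y : P.Y, ∃ y' ∈ P.L, ρ₀ ≤ dist y' y := by
  obtain ⟨a, ha, b, hb, hab⟩ := P.L_nontriv
  refine ⟨dist a b / 2, half_pos (dist_pos.2 hab), fun y => ?_⟩
  by_cases h : dist a b / 2 ≤ dist a y
  · exact ⟨a, ha, h⟩
  · refine ⟨b, hb, ?_⟩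
    push Not at h
    have := dist_triangle_right a b y
    linarith

/-- the levels of the construction. -/
structure S8aLevels where
  ρ₀ : ℝ
  r : ℕ → ℝ
  s : ℕ → ℝ
  N : ℕ → Set P.Y
  far : ∀ y : P.Y, ∃ y' ∈ P.L, ρ₀ ≤ dist y' y
  s_pos : ∀ i, 0 < s i
  s_lt : ∀ i, s i < r i / 4
  r_lt : ∀ i, r i < ρ₀
  r_lt' : ∀ i, r i < 1 / ((i : ℝ) + 1)
  small : ∀ i (g : P.H) (y : P.Y), diam (g • (ball y (r i))ᶜ) < 1 / ((i : ℝ) + 1) ∨
    diam (g • closedBall y (s i)) < 1 / ((i : ℝ) + 1)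
  N_sub : ∀ i, N i ⊆ P.L
  N_fin : ∀ i, (N i).Finite
  N_cov : ∀ i, P.L ⊆ ⋃ y ∈ N i, ball y (s i / 2)

theorem s8a_exists_levels : Nonempty (S8aLevels P) := by
  obtain ⟨ρ₀, hρ₀, hfar⟩ := s8a_exists_far P
  have hlev : ∀ i : ℕ, ∃ r s : ℝ, 0 < s ∧ s < r / 4 ∧ r < min ρ₀ (1 / ((i : ℝ) + 1)) ∧
      ∀ (g : P.H) (y : P.Y), diam (g • (ball y r)ᶜ) < 1 / ((i : ℝ) + 1) ∨
        diam (g • closedBall y s) < 1 / ((i : ℝ) + 1) := fun i =>
    s8a_level P _ _ (lt_min hρ₀ (by positivity)) (by positivity)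
  choose r s h1 h2 h3 h4 using hlev
  have hN : ∀ i : ℕ, ∃ t ⊆ P.L, t.Finite ∧ P.L ⊆ ⋃ x ∈ t, ball x (s i / 2) := fun i =>
    P.isCompact_L.finite_cover_balls (half_pos (h1 i))
  choose N hN1 hN2 hN3 using hN
  exact ⟨⟨ρ₀, r, s, N, hfar, h1, h2, fun i => lt_of_lt_of_le (h3 i) (min_le_left _ _),
    fun i => lt_of_lt_of_le (h3 i) (min_le_right _ _), h4, hN1, hN2, hN3⟩⟩

namespace S8aLevels

variable {P} (Lv : S8aLevels P)

/-- the annuli. -/
def A : Set (Set P.Y × Set P.Y) :=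
  {τ | ∃ i, ∃ y ∈ Lv.N i, ∃ g : P.H, τ = (g • (ball y (Lv.r i))ᶜ, g • closedBall y (Lv.s i))}

theorem r_pos (i : ℕ) : 0 < Lv.r i := by
  have := Lv.s_pos i
  have := Lv.s_lt i
  linarith

theorem seed_disj (i : ℕ) (y : P.Y) : Disjoint ((ball y (Lv.r i))ᶜ) (closedBall y (Lv.s i)) := by
  rw [Set.disjoint_left]
  intro u hu hu2
  apply hu
  have h1 : dist u y ≤ Lv.s i := hu2
  have := Lv.s_lt i
  have := Lv.r_pos i
  show dist u y < Lv.r i
  linarith

theorem seed_meet1 (i : ℕ) (y : P.Y) : (((ball y (Lv.r i))ᶜ) ∩ P.L).Nonempty := by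
  obtain ⟨y', hy', hd⟩ := Lv.far y
  refine ⟨y', ?_, hy'⟩
  intro hc
  have h1 : dist y' y < Lv.r i := hc
  have := Lv.r_lt i
  linarith

theorem seed_meet2 (i : ℕ) (y : P.Y) (hy : y ∈ Lv.N i) : (closedBall y (Lv.s i) ∩ P.L).Nonempty :=
  ⟨y, mem_closedBall_self (Lv.s_pos i).le, Lv.N_sub i hy⟩

theorem seed_notcover (i : ℕ) (y : P.Y) (hy : y ∈ Lv.N i) :
    (ball y (Lv.r i))ᶜ ∪ closedBall y (Lv.s i) ≠ univ := by
  intro hc
  have hpre : IsPreconnected P.L := P.L_conn.isPreconnected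
  obtain ⟨u, -, hu1, hu2⟩ := isPreconnected_closed_iff.1 hpre _ _ isOpen_ball.isClosed_compl isClosed_closedBall
    (by rw [hc]; exact subset_univ _)
    (by rw [inter_comm]; exact Lv.seed_meet1 i y) (by rw [inter_comm]; exact Lv.seed_meet2 i y hy)
  exact Set.disjoint_left.1 (Lv.seed_disj i y) hu1 hu2

theorem smul_inter_L (g : P.H) (S : Set P.Y) (h : (S ∩ P.L).Nonempty) : (g • S ∩ P.L).Nonempty := by
  obtain ⟨u, hu, huL⟩ := h
  exact ⟨g • u, smul_mem_smul_set hu, (P.smul_mem_L_iff g u).2 huL⟩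

theorem fin (δ : ℝ) (hδ : 0 < δ) : {σ | σ ∈ Lv.A ∧ δ ≤ diam σ.1 ∧ δ ≤ diam σ.2}.Finite := by
  obtain ⟨n₀, hn₀⟩ := exists_nat_one_div_lt hδ
  have hfin : (⋃ i ∈ Finset.range n₀, ⋃ y ∈ Lv.N i,
      (fun g : P.H => (g • (ball y (Lv.r i))ᶜ, g • closedBall y (Lv.s i))) ''
        {g : P.H | δ ≤ diam (g • (ball y (Lv.r i))ᶜ) ∧ δ ≤ diam (g • closedBall y (Lv.s i))}).Finite := by
    refine Set.Finite.biUnion (Finset.finite_toSet _) fun i _ => ?_
    refine Set.Finite.biUnion (Lv.N_fin i) fun y _ => ?_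
    exact (s8a_seed_finite P y _ _ δ (Lv.s_pos i) (Lv.s_lt i) hδ).image _
  refine hfin.subset ?_
  rintro σ ⟨⟨i, y, hy, g, rfl⟩, h1, h2⟩
  have hi : i < n₀ := by
    by_contra hc
    push Not at hc
    have h3 : 1 / ((i : ℝ) + 1) ≤ 1 / ((n₀ : ℝ) + 1) := by
      apply one_div_le_one_div_of_le (by positivity)
      have : (n₀ : ℝ) ≤ i := by exact_mod_cast hc
      linarith
    rcases Lv.small i g y with h | h
    · simp only at h1
      linarith
    · simp only at h2
      linarith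
  simp only [mem_iUnion]
  exact ⟨i, Finset.mem_range.2 hi, y, hy, g, ⟨h1, h2⟩, rfl⟩

theorem chain_aux (F : Set P.Y) (hF : IsClosed F) (x : P.Y) (hx : x ∈ P.L) (hxF : x ∉ F) (n : ℕ) :
    ∃ η : ℝ, 0 < η ∧ Disjoint (ball x η) F ∧ ∃ l : List (Set P.Y × Set P.Y), l.length = n ∧
      l.Pairwise annLt ∧ ∀ σ ∈ l, σ ∈ Lv.A ∧ F ⊆ σ.1 ∧ ball x η ⊆ σ.2 := by
  induction n with
  | zero =>
    obtain ⟨η, hη, hb⟩ := Metric.isOpen_iff.1 hF.isOpen_compl x hxF
    refine ⟨η, hη, ?_, [], rfl, List.Pairwise.nil, fun σ hσ => absurd hσ (List.not_mem_nil)⟩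
    rw [Set.disjoint_left]
    exact fun u hu huF => hb hu huF
  | succ n ih =>
    obtain ⟨η, hη, hdisj, l, hlen, hpw, hl⟩ := ih
    obtain ⟨j, hj⟩ := exists_nat_one_div_lt (half_pos hη)
    have hsj := Lv.s_pos j
    have hsr := Lv.s_lt j
    have hrj := Lv.r_lt' j
    obtain ⟨y, hy, hxy⟩ : ∃ y ∈ Lv.N j, x ∈ ball y (Lv.s j / 2) := by
      have := Lv.N_cov j hx
      simp only [mem_iUnion] at this
      obtain ⟨y, hy, h⟩ := this
      exact ⟨y, hy, h⟩
    have hxy' : dist x y < Lv.s j / 2 := hxy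
    have hsub : ball y (Lv.r j) ⊆ ball x η := by
      intro u hu
      have hu' : dist u y < Lv.r j := hu
      have := dist_triangle_right u x y
      show dist u x < η
      linarith
    refine ⟨Lv.s j / 2, half_pos hsj, ?_, l ++ [((ball y (Lv.r j))ᶜ, closedBall y (Lv.s j))], ?_, ?_, ?_⟩
    · refine hdisj.mono_left (ball_subset_ball ?_)
      linarith
    · rw [List.length_append, hlen]; rfl
    · rw [List.pairwise_append]
      refine ⟨hpw, List.pairwise_singleton _ _, ?_⟩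
      intro σ hσ τ hτ
      rw [List.mem_singleton] at hτ
      subst hτ
      show σ.2 ∪ (ball y (Lv.r j))ᶜ = univ
      rw [Set.eq_univ_iff_forall]
      intro u
      by_cases hu : u ∈ ball y (Lv.r j)
      · exact Or.inl ((hl σ hσ).2.2 (hsub hu))
      · exact Or.inr hu
    · intro σ hσ
      rw [List.mem_append, List.mem_singleton] at hσ
      rcases hσ with hσ | rfl
      · refine ⟨(hl σ hσ).1, (hl σ hσ).2.1, (ball_subset_ball ?_).trans (hl σ hσ).2.2⟩
        linarith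
      · refine ⟨⟨j, y, hy, 1, by rw [one_smul, one_smul]⟩, ?_, ?_⟩
        · intro u hu hu2
          exact Set.disjoint_left.1 hdisj (hsub hu2) hu
        · intro u hu
          have hu' : dist u x < Lv.s j / 2 := hu
          have := dist_triangle u x y
          show dist u y ≤ Lv.s j
          linarith

/-- the annulus system of the levels. -/
def annSys : AnnSys P where
  A := Lv.A
  disj := by
    rintro σ ⟨i, y, hy, g, rfl⟩
    exact disjoint_smul_set.2 (Lv.seed_disj i y)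
  meetL := by
    rintro σ ⟨i, y, hy, g, rfl⟩
    exact ⟨smul_inter_L g _ (Lv.seed_meet1 i y), smul_inter_L g _ (Lv.seed_meet2 i y hy)⟩
  notcover := by
    rintro σ ⟨i, y, hy, g, rfl⟩ hc
    apply Lv.seed_notcover i y hy
    have h1 : g • ((ball y (Lv.r i))ᶜ ∪ closedBall y (Lv.s i)) = g • (univ : Set P.Y) := by
      rw [smul_set_union, smul_set_univ]
      exact hc
    have h2 := congrArg (fun S : Set P.Y => g⁻¹ • S) h1
    simpa only [inv_smul_smul] using h2
  inv := by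
    rintro g' σ ⟨i, y, hy, g, rfl⟩
    exact ⟨i, y, hy, g' * g, by simp only [smul_smul]⟩
  fin := Lv.fin
  chain := by
    intro F hF x hx hxF n
    obtain ⟨η, hη, -, l, hlen, hpw, hl⟩ := Lv.chain_aux F hF x hx hxF n
    exact ⟨ball x η, ball_mem_nhds x hη, l, hlen, hpw, hl⟩

end S8aLevels

/-- **Lemma 8.3** -/
theorem PS.exists_annSys : Nonempty (AnnSys P) := by
  obtain ⟨Lv⟩ := s8a_exists_levels P
  exact ⟨Lv.annSys⟩

/-- data for path pushing exist (`I_fin`, `I_alt`: if `I = range ι` take `R = {ι 1}`, otherwise the members of the finite set of `I_fin` which lie in `I`) -/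
theorem PS.exists_push : Nonempty (Push P) := by
  obtain ⟨𝒜⟩ := P.exists_annSys
  by_cases hI : P.I = range P.ι
  · refine ⟨⟨𝒜, {P.ι 1}, finite_singleton _, ?_, ?_, fun _ => rfl⟩⟩
    · rw [hI, singleton_subset_iff]
      exact ⟨1, rfl⟩
    · intro w hw
      rw [hI] at hw
      obtain ⟨h, rfl⟩ := hw
      exact ⟨h, P.ι 1, rfl, P.smul_ι_one h⟩
  · obtain ⟨F, hF⟩ := P.I_fin
    refine ⟨⟨𝒜, {v | v ∈ F ∧ v ∈ P.I}, F.finite_toSet.subset fun v hv => hv.1, fun v hv => hv.2, ?_,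
      fun h => absurd h hI⟩⟩
    intro w hw
    obtain ⟨g, v, hv, rfl⟩ := hF w hw
    exact ⟨g, v, ⟨hv, (P.smul_mem_I_iff g v).1 hw⟩, rfl⟩

end Claimed.Agent.R309
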