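import Claimed.Agent.R309.Defs

/-!
# Row 309, S8-S9: DEFINITIONS for `PS → False`, and package **S8-Basic** (elementary facts on a `PS`)

helper209 (sub-captain S5, S8, S9, S10).  This file is SORRY FREE and frozen (ask helper209 for additions).

## Plan of S8-S10 (all packages are independent: everybody uses the statements of the other files as black boxes)

`P : PS` (see `R309/Defs.lean`): `Y = ι H ⊔ L` compact metric, `K = (I, adj)` a connected `H`-graph.  Compared with the paper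
everything is SEQUENCE FREE and there are no "components", "maximal chains" or "Hausdorff limits":
* `P.Joined T v w`   : `v, w` are joined by a path of the induced graph `K[T]`;
* `P.Om T`           : `Ω_T`, the points of `L` at which the deleted vertices `I \ T` do not accumulate;
* `P.Q T x`          : the component label `Q_T(x)`, as a SET of vertices (defined for all `x`, meaningful on `Ω_T`);
* `AnnSys P`         : an annulus system (Lemma 8.3);  an annulus is a pair of sets `σ = (σ⁻, σ⁺)`; `annLt σ τ` iff `σ⁺ ∪ τ⁻ = Y`;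
* `𝒜.Dep F E n`      : "`D(F,E) ≥ n`": there are `n` pairwise comparable annuli of `𝒜` with `F ⊆ σ⁻`, `E ⊆ σ⁺` (a list, `List.Pairwise`);
   the number `D(F,v)` itself is never used;
* `Push P`           : an annulus system together with a finite set `R` of base vertices with `H R = I`;
* `D.deep A m`       : the set `I_m` of (9.2).

Files:  `S8/Ext` (L8.1)  `S8/Label` (L8.2)  `S8/Ann` (L8.3)  `S8/Depth` (L8.4, L9.1, L9.2)  `S9/Deep` (L9.3, L9.4)
`S9/Event` (L9.5, L9.6)  `S9/Refine` (L9.7)  `S9/LocConn` (P9.8 and `PS → False`)  `S10` (continuum contradiction; DONE by helper29).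
-/

set_option autoImplicit false

namespace Claimed.Agent.R309

open Filter Topology Set Metric
open scoped Pointwise

/-! ## Definitions -/

namespace PS

variable (P : PS)

/-- `v` and `w` are joined by a path of the induced graph `K[T]` (reflexive for ALL `v`, also outside `T`) -/
def Joined (T : Set P.Y) (v w : P.Y) : Prop :=
  Relation.ReflTransGen (fun a b => a ∈ T ∧ b ∈ T ∧ P.adj a b) v w

/-- `Ω_T`: points of `L` which are not accumulation points of the set `I \ T` of deleted vertices -/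
def Om (T : Set P.Y) : Set P.Y := {x | x ∈ P.L ∧ x ∉ closure ((P.I \ T) \ {x})}

/-- the component label `Q_T(x)`: the allowed vertices which are joined in `K[T]` to all allowed vertices near `x` -/
def Q (T : Set P.Y) (x : P.Y) : Set P.Y :=
  {v | v ∈ T ∧ ∃ W ∈ 𝓝 x, ∀ w ∈ T ∩ W, P.Joined T w v}

end PS

/-- nesting of annuli `σ = (σ⁻, σ⁺)`: `σ < τ` iff `σ⁺ ∪ τ⁻ = Y` -/
def annLt {Y : Type} (σ τ : Set Y × Set Y) : Prop := σ.2 ∪ τ.1 = univ

/-- "`D(F,E) ≥ n`" with respect to a set `𝒜` of annuli: `n` pairwise nested annuli, all having `F` on the negative and `E` on the positive side -/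
def AnnDep {Y : Type} (𝒜 : Set (Set Y × Set Y)) (F E : Set Y) (n : ℕ) : Prop :=
  ∃ l : List (Set Y × Set Y), l.length = n ∧ l.Pairwise annLt ∧ ∀ σ ∈ l, σ ∈ 𝒜 ∧ F ⊆ σ.1 ∧ E ⊆ σ.2

/-- an invariant annulus system (conclusion of Lemma 8.3 `ann:system`) -/
structure AnnSys (P : PS) where
  A : Set (Set P.Y × Set P.Y)
  disj : ∀ σ ∈ A, Disjoint σ.1 σ.2
  meetL : ∀ σ ∈ A, (σ.1 ∩ P.L).Nonempty ∧ (σ.2 ∩ P.L).Nonempty
  notcover : ∀ σ ∈ A, σ.1 ∪ σ.2 ≠ univ
  inv : ∀ (g : P.H), ∀ σ ∈ A, (g • σ.1, g • σ.2) ∈ A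
  fin : ∀ δ : ℝ, 0 < δ → {σ | σ ∈ A ∧ δ ≤ diam σ.1 ∧ δ ≤ diam σ.2}.Finite
  chain : ∀ F : Set P.Y, IsClosed F → ∀ x ∈ P.L, x ∉ F → ∀ n : ℕ, ∃ V ∈ 𝓝 x, AnnDep A F V n

/-- "`D(F,E) ≥ n`" -/
def AnnSys.Dep {P : PS} (𝒜 : AnnSys P) (F E : Set P.Y) (n : ℕ) : Prop := AnnDep 𝒜.A F E n

/-- data for path pushing: an annulus system and a finite set `R` of base vertices meeting every orbit (several base vertices in one orbit are
allowed); `R = {ι 1}` when `I = ι H` -/
structure Push (P : PS) where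
  𝒜 : AnnSys P
  R : Set P.Y
  R_fin : R.Finite
  R_sub : R ⊆ P.I
  R_cov : ∀ w ∈ P.I, ∃ g : P.H, ∃ p ∈ R, g • p = w
  R_one : P.I = range P.ι → R = {P.ι 1}

/-- `I_m` of (9.2): vertices outside `A` ALL of whose group representatives have depth `≥ m` -/
def Push.deep {P : PS} (D : Push P) (A : Set P.Y) (m : ℕ) : Set P.Y :=
  {u | u ∈ P.I ∧ u ∉ A ∧ ∀ g : P.H, ∀ p ∈ D.R, g • p = u → D.𝒜.Dep A {P.ι g} m}

/-! ## Package S8-Basic -/

namespace PS

variable (P : PS)

theorem isClosed_L : IsClosed P.L := by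
  have : IsOpen (range P.ι) := by
    rw [← iUnion_singleton_eq_range]
    exact isOpen_iUnion fun g => P.ι_isolated g
  exact this.isClosed_compl

theorem isCompact_L : IsCompact P.L := P.isClosed_L.isCompact

theorem ι_notMem_L (h : P.H) : P.ι h ∉ P.L := fun hh => hh ⟨h, rfl⟩

theorem mem_L_or (y : P.Y) : y ∈ P.L ∨ ∃ h, P.ι h = y := by
  by_cases hy : y ∈ range P.ι
  · exact Or.inr hy
  · exact Or.inl hy

theorem smul_ι (g h : P.H) : g • P.ι h = P.ι (g * h) := (P.ι_mul g h).symm

theorem smul_ι_one (g : P.H) : g • P.ι 1 = P.ι g := by rw [smul_ι, mul_one]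

theorem smul_mem_L_iff (g : P.H) (x : P.Y) : g • x ∈ P.L ↔ x ∈ P.L := by
  have key : g • x ∈ range P.ι ↔ x ∈ range P.ι := by
    constructor
    · rintro ⟨h, hh⟩
      refine ⟨g⁻¹ * h, ?_⟩
      rw [P.ι_mul, hh, inv_smul_smul]
    · rintro ⟨h, rfl⟩
      exact ⟨g * h, P.ι_mul g h⟩
  exact not_congr key

theorem smul_mem_I_iff (g : P.H) (x : P.Y) : g • x ∈ P.I ↔ x ∈ P.I := by
  constructor
  · intro h
    have := P.I_smul g⁻¹ _ h
    rwa [inv_smul_smul] at this
  · exact P.I_smul g x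

theorem adj_smul_iff (g : P.H) (v w : P.Y) : P.adj (g • v) (g • w) ↔ P.adj v w := by
  constructor
  · intro h
    have := P.adj_smul g⁻¹ _ _ h
    rwa [inv_smul_smul, inv_smul_smul] at this
  · exact P.adj_smul g v w

/-- the action as homeomorphisms -/
def homeo (g : P.H) : P.Y ≃ₜ P.Y where
  toFun y := g • y
  invFun y := g⁻¹ • y
  left_inv y := by simp
  right_inv y := by simp
  continuous_toFun := P.act_cont g
  continuous_invFun := P.act_cont g⁻¹

instance instCompactL : CompactSpace P.L := isCompact_iff_compactSpace.mp P.isCompact_L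

instance instConnectedL : ConnectedSpace P.L := isConnected_iff_connectedSpace.mp P.L_conn

instance instNontrivialL : Nontrivial P.L := by
  obtain ⟨x, hx, y, hy, hxy⟩ := P.L_nontriv
  exact ⟨⟨⟨x, hx⟩, ⟨y, hy⟩, fun h => hxy (congrArg Subtype.val h)⟩⟩

theorem dim1_L : Dim1 P.L := P.dim1

theorem cech0_L : Cech0 P.L := P.cech0

/-- no cut point, in the subtype -/
theorem nocut_subtype (x : P.L) : IsPreconnected ({x}ᶜ : Set P.L) := by
  have hind : Topology.IsInducing (Subtype.val : P.L → P.Y) := Topology.IsInducing.subtypeVal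
  rw [← hind.isPreconnected_image]
  have : (Subtype.val '' ({x}ᶜ : Set P.L)) = P.L \ {x.1} := by
    ext y
    constructor
    · rintro ⟨z, hz, rfl⟩
      exact ⟨z.2, fun h => hz (Subtype.ext h)⟩
    · rintro ⟨hy, hyx⟩
      exact ⟨⟨y, hy⟩, fun h => hyx (congrArg Subtype.val h), rfl⟩
  rw [this]
  exact P.L_nocut x.1 x.2

/-- a closed set missing `L` contains only finitely many group points -/
theorem finite_ι_preimage {K : Set P.Y} (hK : IsClosed K) (hKL : Disjoint K P.L) : {h | P.ι h ∈ K}.Finite := by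
  have hsub : K ⊆ ⋃ h : P.H, ({P.ι h} : Set P.Y) := by
    intro y hy
    rcases P.mem_L_or y with hyL | ⟨h, rfl⟩
    · exact absurd hyL (Set.disjoint_left.mp hKL hy)
    · exact mem_iUnion.mpr ⟨h, rfl⟩
  obtain ⟨t, ht⟩ := hK.isCompact.elim_finite_subcover _ (fun h => P.ι_isolated h) hsub
  refine t.finite_toSet.subset ?_
  intro h hh
  obtain ⟨h', hh', hmem⟩ := mem_iUnion₂.mp (ht hh)
  have : h = h' := P.ι_inj hmem
  rw [this]
  exact hh'

/-- group points leave every compact part of `ι H`: they converge to `L` -/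
theorem tendsto_infDist_ι : Tendsto (fun h : P.H => infDist (P.ι h) P.L) cofinite (𝓝 0) := by
  rw [Metric.tendsto_nhds]
  intro ε hε
  rw [Filter.eventually_cofinite]
  have hK : IsClosed {y : P.Y | ε ≤ infDist y P.L} := isClosed_le continuous_const (continuous_infDist_pt _)
  have hKL : Disjoint {y : P.Y | ε ≤ infDist y P.L} P.L := by
    rw [Set.disjoint_left]
    intro y hy hyL
    have h0 : infDist y P.L = 0 := infDist_zero_of_mem hyL
    have hy' : ε ≤ infDist y P.L := hy
    linarith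
  refine (P.finite_ι_preimage hK hKL).subset ?_
  intro h hh
  have hh' : ¬ dist (infDist (P.ι h) P.L) 0 < ε := hh
  rw [Real.dist_eq, sub_zero, abs_of_nonneg infDist_nonneg] at hh'
  exact not_lt.mp hh'

theorem infDist_ι_pos (h : P.H) : 0 < infDist (P.ι h) P.L :=
  (P.isClosed_L.notMem_iff_infDist_pos P.L_conn.nonempty).mp (P.ι_notMem_L h)

/-- `L` has no isolated point -/
theorem L_acc {x : P.Y} (hx : x ∈ P.L) : x ∈ closure (P.L \ {x}) := by
  by_contra hcl
  have hU : IsOpen (closure (P.L \ {x}))ᶜ := isClosed_closure.isOpen_compl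
  obtain ⟨y, hy, hyx⟩ : ∃ y ∈ P.L, y ≠ x := by
    obtain ⟨a, ha, b, hb, hab⟩ := P.L_nontriv
    by_cases hax : a = x
    · exact ⟨b, hb, fun h => hab (hax.trans h.symm)⟩
    · exact ⟨a, ha, hax⟩
  have hpre : IsPreconnected P.L := P.L_conn.isPreconnected
  obtain ⟨z, hzL, hz1, hz2⟩ := hpre (closure (P.L \ {x}))ᶜ ({x}ᶜ) hU isOpen_compl_singleton
    (by
      intro z hz
      by_cases hzx : z = x
      · left; rw [hzx]; exact hcl
      · right; exact hzx)
    ⟨x, hx, hcl⟩ ⟨y, hy, hyx⟩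
  exact hz1 (subset_closure ⟨hzL, hz2⟩)

/-- `L` contains three distinct points -/
theorem exists_three : ∃ z₁ ∈ P.L, ∃ z₂ ∈ P.L, ∃ z₃ ∈ P.L, z₁ ≠ z₂ ∧ z₁ ≠ z₃ ∧ z₂ ≠ z₃ := by
  classical
  have hinf : P.L.Infinite := P.L_conn.isPreconnected.infinite_of_nontrivial P.L_nontriv
  obtain ⟨t, htL, ht3⟩ := hinf.exists_subset_card_eq 3
  obtain ⟨a, b, c, hab, hac, hbc, rfl⟩ := Finset.card_eq_three.mp ht3
  exact ⟨a, htL (by simp), b, htL (by simp), c, htL (by simp), hab, hac, hbc⟩

/-- a limit of group points along a sequence leaving all finite sets lies in `L` -/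
theorem mem_L_of_tendsto {g : ℕ → P.H} (hg : Tendsto g atTop cofinite) {a : P.Y}
    (ha : Tendsto (fun n => P.ι (g n)) atTop (𝓝 a)) : a ∈ P.L := by
  rcases P.mem_L_or a with h | ⟨h, rfl⟩
  · exact h
  · exfalso
    have h1 : ∀ᶠ n in atTop, P.ι (g n) ∈ ({P.ι h} : Set P.Y) :=
      ha ((P.ι_isolated h).mem_nhds rfl)
    have h2 : ∀ᶠ n in atTop, g n ∈ ({h}ᶜ : Set P.H) :=
      hg (by rw [mem_cofinite, compl_compl]; exact finite_singleton h)
    obtain ⟨n, hn1, hn2⟩ := (h1.and h2).exists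
    exact hn2 (P.ι_inj hn1)

/-- conversely, group points converging to a point of `L` leave all finite sets -/
theorem tendsto_cofinite_of_tendsto {g : ℕ → P.H} {a : P.Y} (haL : a ∈ P.L)
    (ha : Tendsto (fun n => P.ι (g n)) atTop (𝓝 a)) : Tendsto g atTop cofinite := by
  intro s hs
  rw [mem_cofinite] at hs
  have hfin : (P.ι '' sᶜ).Finite := hs.image _
  have hnot : a ∉ P.ι '' sᶜ := by
    rintro ⟨h, _, rfl⟩
    exact P.ι_notMem_L h haL
  have hev : ∀ᶠ n in atTop, P.ι (g n) ∈ (P.ι '' sᶜ)ᶜ := ha (hfin.isClosed.isOpen_compl.mem_nhds hnot)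
  refine hev.mono ?_
  intro n hn
  by_contra hns
  exact hn ⟨g n, hns, rfl⟩

/-- convergence subsequences -/
theorem exists_subseq (g : ℕ → P.H) (hg : Tendsto g atTop cofinite) :
    ∃ φ : ℕ → ℕ, StrictMono φ ∧ ∃ a ∈ P.L, ∃ b ∈ P.L,
      Tendsto (fun n => P.ι (g (φ n))) atTop (𝓝 a) ∧ Tendsto (fun n => P.ι (g (φ n))⁻¹) atTop (𝓝 b) := by
  obtain ⟨a, φ, hφ, ha⟩ := CompactSpace.tendsto_subseq (fun n => P.ι (g n))
  obtain ⟨b, ψ, hψ, hb⟩ := CompactSpace.tendsto_subseq (fun n => P.ι (g (φ n))⁻¹)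
  have hg' : Tendsto (fun n => g (φ (ψ n))) atTop cofinite :=
    hg.comp ((hφ.comp hψ).tendsto_atTop)
  have ha' : Tendsto (fun n => P.ι (g (φ (ψ n)))) atTop (𝓝 a) := ha.comp hψ.tendsto_atTop
  have hginv : Tendsto (fun n => (g (φ (ψ n)))⁻¹) atTop cofinite :=
    (inv_injective.tendsto_cofinite).comp hg'
  exact ⟨φ ∘ ψ, hφ.comp hψ, a, P.mem_L_of_tendsto hg' ha', b, P.mem_L_of_tendsto hginv hb, ha', hb⟩

/-- **uniform form of the convergence property** (first paragraph of the proof of Lemma 8.3): for `r, ε > 0`, all but finitely many `g`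
contract the complement of some `r`-ball to a set of diameter `≤ ε`.
Proof: otherwise an injective sequence of exceptions (`Set.Infinite.natEmbedding`), `exists_subseq`, `P.conv` on `K = (ball b r)ᶜ`. -/
theorem unif_conv (r ε : ℝ) (hr : 0 < r) (hε : 0 < ε) :
    {g : P.H | ¬ ∃ b ∈ P.L, ∀ y y' : P.Y, r ≤ dist y b → r ≤ dist y' b → dist (g • y) (g • y') < ε}.Finite := by
  by_contra hinf
  have hinf' : Set.Infinite _ := hinf
  let f := hinf'.natEmbedding
  have hg : Tendsto (fun n => (f n).1) atTop cofinite := by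
    rw [← Nat.cofinite_eq_atTop]
    exact (Subtype.val_injective.comp f.injective).tendsto_cofinite
  obtain ⟨φ, _, a, haL, b, hbL, ha, hb⟩ := P.exists_subseq _ hg
  have hK : IsCompact ((ball b r)ᶜ : Set P.Y) := isOpen_ball.isClosed_compl.isCompact
  have hbK : b ∉ ((ball b r)ᶜ : Set P.Y) := fun h => h (mem_ball_self hr)
  have hu := P.conv (fun n => (f (φ n)).1) a b haL hbL ha hb _ hK hbK
  rw [Metric.tendstoUniformlyOn_iff] at hu
  obtain ⟨n, hn⟩ := (hu (ε / 2) (half_pos hε)).exists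
  apply (f (φ n)).2
  refine ⟨b, hbL, ?_⟩
  intro y y' hy hy'
  have h1 := hn y (by simpa [mem_ball, not_lt] using hy)
  have h2 := hn y' (by simpa [mem_ball, not_lt] using hy')
  calc dist ((f (φ n)).1 • y) ((f (φ n)).1 • y')
      ≤ dist ((f (φ n)).1 • y) a + dist a ((f (φ n)).1 • y') := dist_triangle _ _ _
    _ < ε / 2 + ε / 2 := by
        rw [dist_comm _ a]
        exact add_lt_add h1 h2
    _ = ε := add_halves ε

/-- comparison, uniformly over a finite set of vertices -/
theorem comp_finite {R : Set P.Y} (hR : R.Finite) (hRI : R ⊆ P.I) (ε : ℝ) (hε : 0 < ε) :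
    {g : P.H | ∃ p ∈ R, ε ≤ dist (g • p) (P.ι g)}.Finite := by
  have : {g : P.H | ∃ p ∈ R, ε ≤ dist (g • p) (P.ι g)} = ⋃ p ∈ R, {g : P.H | ε ≤ dist (g • p) (P.ι g)} := by
    ext g; simp
  rw [this]
  refine hR.biUnion ?_
  intro p hp
  have h := P.comp p (hRI hp)
  rw [Metric.tendsto_nhds] at h
  have h' := h ε hε
  rw [Filter.eventually_cofinite] at h'
  refine h'.subset ?_
  intro g hg
  have hg' : ε ≤ dist (g • p) (P.ι g) := hg
  show ¬ dist (dist (g • p) (P.ι g)) 0 < ε
  rw [Real.dist_eq, sub_zero, abs_of_nonneg dist_nonneg]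
  exact not_lt.mpr hg'

/-! ### paths in induced subgraphs -/

variable {P}

theorem Joined.refl (T : Set P.Y) (v : P.Y) : P.Joined T v v := Relation.ReflTransGen.refl

theorem Joined.trans {T : Set P.Y} {u v w : P.Y} (h : P.Joined T u v) (h' : P.Joined T v w) : P.Joined T u w :=
  Relation.ReflTransGen.trans h h'

theorem Joined.symm {T : Set P.Y} {v w : P.Y} (h : P.Joined T v w) : P.Joined T w v := by
  induction h with
  | refl => exact Relation.ReflTransGen.refl
  | tail _ hbc ih => exact Relation.ReflTransGen.head ⟨hbc.2.1, hbc.1, P.adj_symm _ _ hbc.2.2⟩ ih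

theorem Joined.mono {T T' : Set P.Y} (hT : T ⊆ T') {v w : P.Y} (h : P.Joined T v w) : P.Joined T' v w := by
  induction h with
  | refl => exact Relation.ReflTransGen.refl
  | tail _ hbc ih => exact Relation.ReflTransGen.tail ih ⟨hT hbc.1, hT hbc.2.1, hbc.2.2⟩

theorem Joined.mem_right {T : Set P.Y} {v w : P.Y} (h : P.Joined T v w) (hv : v ∈ T) : w ∈ T := by
  induction h with
  | refl => exact hv
  | tail _ hbc _ => exact hbc.2.1

/-- translation of a path -/
theorem Joined.smul {T T' : Set P.Y} (g : P.H) (hT : ∀ t ∈ T, g • t ∈ T') {v w : P.Y} (h : P.Joined T v w) :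
    P.Joined T' (g • v) (g • w) := by
  induction h with
  | refl => exact Relation.ReflTransGen.refl
  | tail _ hbc ih => exact Relation.ReflTransGen.tail ih ⟨hT _ hbc.1, hT _ hbc.2.1, P.adj_smul g _ _ hbc.2.2⟩

/-- a quantity which does not change along the edges of `K[T]` is constant along paths -/
theorem Joined.const {T : Set P.Y} {v w : P.Y} (h : P.Joined T v w) {α : Type} (f : P.Y → α)
    (hf : ∀ a ∈ T, ∀ b ∈ T, P.adj a b → f a = f b) : f v = f w := by
  induction h with
  | refl => rfl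
  | tail _ hbc ih => exact ih.trans (hf _ hbc.1 _ hbc.2.1 hbc.2.2)

/-- a path from `U` to the complement of `U` contains an edge from `U` to the complement -/
theorem Joined.exists_exit {T : Set P.Y} {v w : P.Y} (h : P.Joined T v w) (U : Set P.Y) (hv : v ∈ U) (hw : w ∉ U) :
    ∃ a ∈ T, ∃ b ∈ T, P.adj a b ∧ a ∈ U ∧ b ∉ U := by
  induction h with
  | refl => exact absurd hv hw
  | @tail b c _ hbc ih =>
    by_cases hb : b ∈ U
    · exact ⟨b, hbc.1, c, hbc.2.1, hbc.2.2, hb, hw⟩
    · exact ih hb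

end PS

end Claimed.Agent.R309
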