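import Claimed.Agent.R309.S8.Defs

/-!
# Row 309, package **S8-Depth**: Lemma 8.4 (`ann:depth`), Lemma 9.1 (`push:shrinking`), Lemma 9.2 (`push:depth-comparison`)

Statements: helper209.  OWNER: helper48.  Sorry free.  Black box: `S8/Defs.lean` (S8-Basic).  An `𝒜 : AnnSys P` is GIVEN here.

`𝒜.Dep F E n` ("`D(F,E) ≥ n`") = a list of `n` annuli of `𝒜`, `List.Pairwise annLt`, all with `F ⊆ σ⁻`, `E ⊆ σ⁺`.
Facts on `annLt` inside `𝒜`: irreflexive (`notcover`), so such a list is `Nodup`; sublists (`List.Pairwise.sublist`, `filter`, `take`) are again admissible.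
If `σ < τ` then `σ⁻ ⊆ τ⁻`, `τ⁺ ⊆ σ⁺` (`disj`).  Diameters: `Y` is compact, all sets are bounded (`Metric.dist_le_diam_of_mem`, `isBounded_of_compactSpace`).
A side which contains `ι h` has diameter `≥ infDist (ι h) L > 0`, because it meets `L` (`meetL`, `PS.infDist_ι_pos`).
-/

set_option autoImplicit false

namespace Claimed.Agent.R309

open Filter Topology Set Metric
open scoped Pointwise

namespace AnnSys

variable {P : PS} (𝒜 : AnnSys P)

theorem dep_zero (F E : Set P.Y) : 𝒜.Dep F E 0 := ⟨[], rfl, List.Pairwise.nil, by simp⟩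

/-- monotone in the length (`List.take`) -/
theorem Dep.le {F E : Set P.Y} {n n' : ℕ} (h : 𝒜.Dep F E n) (hn : n' ≤ n) : 𝒜.Dep F E n' := by
  obtain ⟨l, hl, hp, hm⟩ := h
  refine ⟨l.take n', ?_, hp.sublist (List.take_sublist _ _), fun σ hσ => hm σ (List.mem_of_mem_take hσ)⟩
  rw [List.length_take, hl]
  exact min_eq_left hn

/-- antitone in the two sets -/
theorem Dep.mono {F E F' E' : Set P.Y} {n : ℕ} (h : 𝒜.Dep F E n) (hF : F' ⊆ F) (hE : E' ⊆ E) : 𝒜.Dep F' E' n := by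
  obtain ⟨l, hl, hp, hm⟩ := h
  exact ⟨l, hl, hp, fun σ hσ => ⟨(hm σ hσ).1, hF.trans (hm σ hσ).2.1, hE.trans (hm σ hσ).2.2⟩⟩

theorem s8d_dep_smul_aux (g : P.H) {F E : Set P.Y} {n : ℕ} (h : 𝒜.Dep F E n) : 𝒜.Dep (g • F) (g • E) n := by
  obtain ⟨l, hl, hp, hm⟩ := h
  refine ⟨l.map (fun σ => (g • σ.1, g • σ.2)), by rw [List.length_map, hl], ?_, ?_⟩
  · rw [List.pairwise_map]
    refine hp.imp ?_
    intro σ τ hστ
    show g • σ.2 ∪ g • τ.1 = univ
    have h1 : σ.2 ∪ τ.1 = univ := hστ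
    rw [← Set.smul_set_union, h1, Set.smul_set_univ]
  · intro τ hτ
    obtain ⟨σ, hσ, rfl⟩ := List.mem_map.1 hτ
    exact ⟨𝒜.inv g σ (hm σ hσ).1, Set.smul_set_mono (hm σ hσ).2.1, Set.smul_set_mono (hm σ hσ).2.2⟩

/-- **Lemma 8.4, invariance** (`List.map`, `𝒜.inv`; for the converse use `g⁻¹`) -/
theorem dep_smul (g : P.H) (F E : Set P.Y) (n : ℕ) : 𝒜.Dep (g • F) (g • E) n ↔ 𝒜.Dep F E n := by
  constructor
  · intro h
    have h2 := s8d_dep_smul_aux 𝒜 g⁻¹ h
    rwa [inv_smul_smul, inv_smul_smul] at h2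
  · exact s8d_dep_smul_aux 𝒜 g

/-- the form in which invariance is used: `D(A, g b) = D(g⁻¹ A, b)` -/
theorem dep_smul_ι (g b : P.H) (A : Set P.Y) (n : ℕ) : 𝒜.Dep A {P.ι (g * b)} n ↔ 𝒜.Dep (g⁻¹ • A) {P.ι b} n := by
  rw [← dep_smul 𝒜 g⁻¹ A {P.ι (g * b)} n, Set.smul_set_singleton, P.smul_ι, inv_mul_cancel_left]

/-- a positive depth separates -/
theorem Dep.disjoint {F E : Set P.Y} {n : ℕ} (h : 𝒜.Dep F E n) (hn : 0 < n) : Disjoint F E := by
  obtain ⟨l, hl, hp, hm⟩ := h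
  have hne : l ≠ [] := by
    rintro rfl
    simp at hl
    omega
  obtain ⟨σ, hσ⟩ := List.exists_mem_of_ne_nil l hne
  exact (𝒜.disj σ (hm σ hσ).1).mono (hm σ hσ).2.1 (hm σ hσ).2.2

theorem s8d_irrefl {σ : Set P.Y × Set P.Y} (hσ : σ ∈ 𝒜.A) : ¬ annLt σ σ := by
  intro h
  apply 𝒜.notcover σ hσ
  rw [union_comm]
  exact h

theorem s8d_nodup {l : List (Set P.Y × Set P.Y)} (hp : l.Pairwise annLt) (hm : ∀ σ ∈ l, σ ∈ 𝒜.A) : l.Nodup := by
  refine hp.imp_of_mem ?_
  intro a b ha _ hab heq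
  subst heq
  exact s8d_irrefl 𝒜 (hm a ha) hab

/-- **counting**: an admissible list all of whose members have both sides of diameter `≥ δ` is bounded in length -/
theorem dep_count (a b : ℝ) (ha : 0 < a) (hb : 0 < b) :
    ∃ N : ℕ, ∀ l : List (Set P.Y × Set P.Y), l.Pairwise annLt → (∀ σ ∈ l, σ ∈ 𝒜.A ∧ a ≤ diam σ.1 ∧ b ≤ diam σ.2) →
      l.length ≤ N := by
  classical
  have hfin := 𝒜.fin (min a b) (lt_min ha hb)
  refine ⟨hfin.toFinset.card, fun l hp hm => ?_⟩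
  rw [← List.toFinset_card_of_nodup (s8d_nodup 𝒜 hp fun σ hσ => (hm σ hσ).1)]
  refine Finset.card_le_card ?_
  intro σ hσ
  rw [List.mem_toFinset] at hσ
  rw [Set.Finite.mem_toFinset]
  exact ⟨(hm σ hσ).1, (min_le_left _ _).trans (hm σ hσ).2.1, (min_le_right _ _).trans (hm σ hσ).2.2⟩

theorem s8d_le_diam {S : Set P.Y} {h : P.H} (hh : P.ι h ∈ S) (hL : (S ∩ P.L).Nonempty) :
    infDist (P.ι h) P.L ≤ diam S := by
  obtain ⟨z, hzS, hzL⟩ := hL
  exact (infDist_le_dist_of_mem hzL).trans (dist_le_diam_of_mem isBounded_of_compactSpace hh hzS)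

/-- **Lemma 8.4, finiteness**: depth between sets containing group points is bounded -/
theorem dep_bdd (h v : P.H) : ∃ N : ℕ, ∀ (F E : Set P.Y) (n : ℕ), P.ι h ∈ F → P.ι v ∈ E → 𝒜.Dep F E n → n ≤ N := by
  obtain ⟨N, hN⟩ := dep_count 𝒜 _ _ (P.infDist_ι_pos h) (P.infDist_ι_pos v)
  refine ⟨N, fun F E n hF hE hd => ?_⟩
  obtain ⟨l, hl, hp, hm⟩ := hd
  rw [← hl]
  refine hN l hp fun σ hσ => ⟨(hm σ hσ).1, ?_, ?_⟩
  · exact s8d_le_diam ((hm σ hσ).2.1 hF) (𝒜.meetL σ (hm σ hσ).1).1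
  · exact s8d_le_diam ((hm σ hσ).2.2 hE) (𝒜.meetL σ (hm σ hσ).1).2

/-- **Lemma 8.4, last part, global form**: for closed `F` and closed `K` with `K ∩ L` disjoint from `F`, all but finitely many group points of `K` have depth `≥ N`.
Proof: `𝒜.chain` at every `x ∈ K ∩ L`, finite subcover of the compact set `K ∩ L` by the interiors, `PS.finite_ι_preimage` for the rest of `K`. -/
theorem dep_cofinite (F K : Set P.Y) (hF : IsClosed F) (hK : IsClosed K) (hKF : Disjoint (K ∩ P.L) F) (N : ℕ) :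
    {b : P.H | P.ι b ∈ K ∧ ¬ 𝒜.Dep F {P.ι b} N}.Finite := by
  have hch : ∀ x, x ∈ K ∩ P.L → ∃ V ∈ 𝓝 x, AnnDep 𝒜.A F V N := fun x hx =>
    𝒜.chain F hF x hx.2 (fun hxF => Set.disjoint_left.1 hKF hx hxF) N
  choose! V hV hVd using hch
  have hcpt : IsCompact (K ∩ P.L) := (hK.inter P.isClosed_L).isCompact
  obtain ⟨t, ht⟩ := hcpt.elim_nhds_subcover' (fun x _ => interior (V x)) (fun x hx => interior_mem_nhds.2 (hV x hx))
  have hopen : IsOpen (⋃ x ∈ t, interior (V (x : P.Y))) :=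
    isOpen_biUnion fun x _ => isOpen_interior
  have hcl : IsClosed (K \ ⋃ x ∈ t, interior (V (x : P.Y))) := hK.sdiff hopen
  have hdis : Disjoint (K \ ⋃ x ∈ t, interior (V (x : P.Y))) P.L := by
    rw [Set.disjoint_left]
    intro y hy hyL
    exact hy.2 (ht ⟨hy.1, hyL⟩)
  refine (P.finite_ι_preimage hcl hdis).subset ?_
  rintro b ⟨hbK, hbd⟩
  refine ⟨hbK, fun hb => hbd ?_⟩
  obtain ⟨x, hx⟩ := mem_iUnion.1 hb
  obtain ⟨_, hx2⟩ := mem_iUnion.1 hx
  have h3 : 𝒜.Dep F (V (x : P.Y)) N := hVd x x.2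
  exact Dep.mono 𝒜 h3 Subset.rfl (singleton_subset_iff.2 (interior_subset hx2))

/-- special case `F = {ι 1}`, `K = univ` -/
theorem dep_one_cofinite (N : ℕ) : {b : P.H | ¬ 𝒜.Dep {P.ι 1} {P.ι b} N}.Finite := by
  have h := dep_cofinite 𝒜 {P.ι 1} univ isClosed_singleton isClosed_univ
    (by
      rw [Set.disjoint_left]
      rintro y ⟨-, hyL⟩ hy
      rw [mem_singleton_iff] at hy
      exact P.ι_notMem_L 1 (hy ▸ hyL)) N
  refine h.subset ?_
  intro b hb
  exact ⟨mem_univ _, hb⟩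

/-- **Lemma 9.1, first half**: a set of large depth with respect to `ι 1` is small.
Proof: `N` from `dep_count ε d₀`, `d₀ = infDist (ι 1) L`, `m = N + 1`: some member of the list has `diam σ⁻ < ε`, and `F ⊆ σ⁻`. -/
theorem dep_small (ε : ℝ) (hε : 0 < ε) :
    ∃ m : ℕ, ∀ F : Set P.Y, 𝒜.Dep F {P.ι 1} m → ∀ y ∈ F, ∀ y' ∈ F, dist y y' < ε := by
  obtain ⟨N, hN⟩ := dep_count 𝒜 ε _ hε (P.infDist_ι_pos 1)
  refine ⟨N + 1, fun F hd y hy y' hy' => ?_⟩
  obtain ⟨l, hl, hp, hm⟩ := hd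
  by_contra hcon
  rw [not_lt] at hcon
  have h1 : l.length ≤ N := by
    refine hN l hp fun σ hσ => ⟨(hm σ hσ).1, ?_, ?_⟩
    · exact hcon.trans (dist_le_diam_of_mem isBounded_of_compactSpace ((hm σ hσ).2.1 hy) ((hm σ hσ).2.1 hy'))
    · exact s8d_le_diam ((hm σ hσ).2.2 rfl) (𝒜.meetL σ (hm σ hσ).1).2
  omega

/-- **Lemma 9.1, second half**: elements of large depth leave every finite set (`dep_bdd`) -/
theorem dep_escape (A : Set P.Y) (h1 : P.ι 1 ∈ A) (E : Set P.H) (hE : E.Finite) :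
    ∃ m : ℕ, ∀ g ∈ E, ¬ 𝒜.Dep A {P.ι g} m := by
  have hb : ∀ g : P.H, ∃ N : ℕ, ∀ n, 𝒜.Dep A {P.ι g} n → n ≤ N := by
    intro g
    obtain ⟨N, hN⟩ := dep_bdd 𝒜 1 g
    exact ⟨N, fun n hn => hN A {P.ι g} n h1 (mem_singleton _) hn⟩
  choose N hN using hb
  refine ⟨hE.toFinset.sup N + 1, fun g hg hd => ?_⟩
  have h2 := hN g _ hd
  have h3 : N g ≤ hE.toFinset.sup N := Finset.le_sup (f := N) (hE.mem_toFinset.2 hg)
  omega

/-- pruning on the left: from `l` annuli with `F` on the negative and `ι 1` on the positive side keep those whose positive side contains `(ball q r)ᶜ`.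
Proof: `l' = l.filter (σ⁻ ⊆ ball q r)` loses at most `N(r/2, d₀)` members (a negative side not inside `ball q r` contains a point of `F ⊆ ball q (r/2)` and a point outside
`ball q r`, so has diameter `≥ r/2`); drop the LAST member `τ` of `l'`: every other `σ ∈ l'` has `σ⁺ ∪ τ⁻ = univ`, `τ⁻ ⊆ ball q r`. -/
theorem dep_prune_left (r : ℝ) (hr : 0 < r) :
    ∃ C : ℕ, ∀ (q : P.Y) (F : Set P.Y) (l : ℕ), F.Nonempty → F ⊆ ball q (r / 2) → 𝒜.Dep F {P.ι 1} l →
      𝒜.Dep F (ball q r)ᶜ (l - C) := by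
  classical
  obtain ⟨N, hN⟩ := dep_count 𝒜 (r / 2) _ (half_pos hr) (P.infDist_ι_pos 1)
  refine ⟨N + 1, fun q F n hFne hF hd => ?_⟩
  obtain ⟨l, hl, hp, hm⟩ := hd
  obtain ⟨f, hf⟩ := hFne
  set p : Set P.Y × Set P.Y → Bool := fun σ => decide (σ.1 ⊆ ball q r) with hpdef
  have hlen := List.length_eq_length_filter_add (l := l) p
  have hbad : (l.filter (fun σ => !p σ)).length ≤ N := by
    refine hN _ (hp.filter _) fun σ hσ => ?_
    rw [List.mem_filter] at hσ
    obtain ⟨hσl, hσp⟩ := hσ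
    have hns : ¬ σ.1 ⊆ ball q r := by simpa [hpdef] using hσp
    refine ⟨(hm σ hσl).1, ?_, s8d_le_diam ((hm σ hσl).2.2 rfl) (𝒜.meetL σ (hm σ hσl).1).2⟩
    obtain ⟨y, hy, hyb⟩ := Set.not_subset.1 hns
    have h1 : dist f q < r / 2 := hF hf
    have h2 : r ≤ dist y q := by
      rw [mem_ball, not_lt] at hyb
      exact hyb
    have h3 : dist y q ≤ dist y f + dist f q := dist_triangle _ _ _
    have h4 : dist y f ≤ diam σ.1 := dist_le_diam_of_mem isBounded_of_compactSpace hy ((hm σ hσl).2.1 hf)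
    linarith
  have hgoodp : (l.filter p).Pairwise annLt := hp.filter _
  rcases List.eq_nil_or_concat (l.filter p) with hnil | ⟨l', τ, hl'⟩
  · rw [hnil] at hlen
    simp only [List.length_nil, zero_add] at hlen
    have h0 : n - (N + 1) = 0 := by omega
    rw [h0]
    exact dep_zero 𝒜 _ _
  · rw [List.concat_eq_append] at hl'
    have hτ : τ ∈ l.filter p := by rw [hl']; simp
    have hτb : τ.1 ⊆ ball q r := by
      have := (List.mem_filter.1 hτ).2
      simpa [hpdef] using this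
    rw [hl', List.pairwise_append] at hgoodp
    have hd' : 𝒜.Dep F (ball q r)ᶜ l'.length := by
      refine ⟨l', rfl, hgoodp.1, fun σ hσ => ?_⟩
      have hσl : σ ∈ l := by
        have : σ ∈ l.filter p := by rw [hl']; exact List.mem_append_left _ hσ
        exact (List.mem_filter.1 this).1
      refine ⟨(hm σ hσl).1, (hm σ hσl).2.1, ?_⟩
      intro y hy
      have h5 : σ.2 ∪ τ.1 = univ := hgoodp.2.2 σ hσ τ (by simp)
      have h6 : y ∈ σ.2 ∪ τ.1 := by rw [h5]; exact mem_univ y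
      rcases h6 with h6 | h6
      · exact h6
      · exact absurd (hτb h6) hy
    refine Dep.le 𝒜 hd' ?_
    rw [hl'] at hlen
    simp only [List.length_append, List.length_cons, List.length_nil] at hlen
    omega

/-- pruning on the right: symmetric; a positive side which contains `b` and meets `closedBall q (2 r)` has diameter `≥ r`. -/
theorem dep_prune_right (r : ℝ) (hr : 0 < r) :
    ∃ C : ℕ, ∀ (q b : P.Y) (t : ℕ), 3 * r ≤ dist b q → 𝒜.Dep {P.ι 1} {b} t →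
      𝒜.Dep (closedBall q (2 * r)) {b} (t - C) := by
  classical
  obtain ⟨N, hN⟩ := dep_count 𝒜 _ r (P.infDist_ι_pos 1) hr
  refine ⟨N + 1, fun q b n hb hd => ?_⟩
  obtain ⟨l, hl, hp, hm⟩ := hd
  set p : Set P.Y × Set P.Y → Bool := fun σ => decide (Disjoint σ.2 (closedBall q (2 * r))) with hpdef
  have hlen := List.length_eq_length_filter_add (l := l) p
  have hbad : (l.filter (fun σ => !p σ)).length ≤ N := by
    refine hN _ (hp.filter _) fun σ hσ => ?_
    rw [List.mem_filter] at hσ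
    obtain ⟨hσl, hσp⟩ := hσ
    have hns : ¬ Disjoint σ.2 (closedBall q (2 * r)) := by simpa [hpdef] using hσp
    refine ⟨(hm σ hσl).1, s8d_le_diam ((hm σ hσl).2.1 rfl) (𝒜.meetL σ (hm σ hσl).1).1, ?_⟩
    obtain ⟨y, hy, hyb⟩ := Set.not_disjoint_iff.1 hns
    have h2 : dist y q ≤ 2 * r := hyb
    have h3 : dist b q ≤ dist b y + dist y q := dist_triangle _ _ _
    have h4 : dist b y ≤ diam σ.2 := dist_le_diam_of_mem isBounded_of_compactSpace ((hm σ hσl).2.2 rfl) hy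
    linarith
  have hgoodp : (l.filter p).Pairwise annLt := hp.filter _
  rcases hl' : l.filter p with _ | ⟨τ, l'⟩
  · rw [hl'] at hlen
    simp only [List.length_nil, zero_add] at hlen
    have h0 : n - (N + 1) = 0 := by omega
    rw [h0]
    exact dep_zero 𝒜 _ _
  · have hτ : τ ∈ l.filter p := by rw [hl']; simp
    have hτb : Disjoint τ.2 (closedBall q (2 * r)) := by
      have := (List.mem_filter.1 hτ).2
      simpa [hpdef] using this
    rw [hl', List.pairwise_cons] at hgoodp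
    have hd' : 𝒜.Dep (closedBall q (2 * r)) {b} l'.length := by
      refine ⟨l', rfl, hgoodp.2, fun σ hσ => ?_⟩
      have hσl : σ ∈ l := by
        have : σ ∈ l.filter p := by rw [hl']; exact List.mem_cons_of_mem _ hσ
        exact (List.mem_filter.1 this).1
      refine ⟨(hm σ hσl).1, ?_, (hm σ hσl).2.2⟩
      intro y hy
      have h5 : τ.2 ∪ σ.1 = univ := hgoodp.1 σ hσ
      have h6 : y ∈ τ.2 ∪ σ.1 := by rw [h5]; exact mem_univ y
      rcases h6 with h6 | h6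
      · exact absurd hy (Set.disjoint_left.1 hτb h6)
      · exact h6
    refine Dep.le 𝒜 hd' ?_
    rw [hl'] at hlen
    simp only [List.length_cons] at hlen
    omega

/-- concatenation (`List.pairwise_append`) -/
theorem Dep.append {F E F' E' : Set P.Y} {n n' : ℕ} (h : 𝒜.Dep F E n) (h' : 𝒜.Dep F' E' n') (hcov : E ∪ F' = univ)
    (hF : F ⊆ F') (hE : E' ⊆ E) : 𝒜.Dep F E' (n + n') := by
  obtain ⟨l, hl, hp, hm⟩ := h
  obtain ⟨l', hl', hp', hm'⟩ := h'
  refine ⟨l ++ l', by rw [List.length_append, hl, hl'], ?_, ?_⟩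
  · rw [List.pairwise_append]
    refine ⟨hp, hp', fun σ hσ τ hτ => ?_⟩
    show σ.2 ∪ τ.1 = univ
    rw [eq_univ_iff_forall]
    intro y
    have hy : y ∈ E ∪ F' := by rw [hcov]; exact mem_univ y
    rcases hy with hy | hy
    · exact Or.inl ((hm σ hσ).2.2 hy)
    · exact Or.inr ((hm' τ hτ).2.1 hy)
  · intro σ hσ
    rcases List.mem_append.1 hσ with hσ | hσ
    · exact ⟨(hm σ hσ).1, (hm σ hσ).2.1, hE.trans (hm σ hσ).2.2⟩
    · exact ⟨(hm' σ hσ).1, hF.trans (hm' σ hσ).2.1, (hm' σ hσ).2.2⟩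

/-- **Lemma 9.2** (`push:depth-comparison`), sequence free and without maximal chains:
`D(F,b) ≥ D(F,1) + D(1,b) - C_r` as soon as `F ⊆ ball q (r/2)` and `dist b q ≥ 3 r`.  The constant depends only on `r`. -/
theorem dep_concat (r : ℝ) (hr : 0 < r) :
    ∃ C : ℕ, ∀ (q : P.Y) (F : Set P.Y) (b : P.Y) (l t : ℕ), F.Nonempty → F ⊆ ball q (r / 2) → 3 * r ≤ dist b q →
      𝒜.Dep F {P.ι 1} l → 𝒜.Dep {P.ι 1} {b} t → 𝒜.Dep F {b} (l + t - C) := by
  obtain ⟨C₁, hC₁⟩ := dep_prune_left 𝒜 r hr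
  obtain ⟨C₂, hC₂⟩ := dep_prune_right 𝒜 r hr
  refine ⟨C₁ + C₂, fun q F b l t hFne hF hb hl ht => ?_⟩
  have h1 := hC₁ q F l hFne hF hl
  have h2 := hC₂ q b t hb ht
  have h3 : 𝒜.Dep F {b} ((l - C₁) + (t - C₂)) := by
    refine Dep.append 𝒜 h1 h2 ?_ ?_ ?_
    · rw [eq_univ_iff_forall]
      intro y
      by_cases hy : y ∈ ball q r
      · right
        rw [mem_ball] at hy
        rw [mem_closedBall]
        linarith
      · exact Or.inl hy
    · intro y hy
      have := hF hy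
      rw [mem_ball] at this
      rw [mem_closedBall]
      linarith
    · rw [singleton_subset_iff, mem_compl_iff, mem_ball, not_lt]
      linarith
  exact Dep.le 𝒜 h3 (by omega)

end AnnSys

end Claimed.Agent.R309
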