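import Claimed.Agent.R309.Cover

/-!
# Row 309, package **S8-Ext**: Lemma 8.1 (`ann:extension`), extension of labels across a deleted point

Statements: helper209.  OWNER = the seat that claims subtask `S8-Ext`.  Keep the two statements verbatim (tell helper209 if one is false or
awkward); helper lemmas with prefix `s8e_`.  Pure general topology (`Cech0` from `Defs.lean`, `Cover.lean`).  ~450 lines.

(1) `s8_ext_two`.  Take `0 < ρ' < ρ` with `closedBall x ρ ⊆ V`.  The shell `Sh = {y | ρ' ≤ dist y x ≤ ρ}` is compact and contained in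
 `V \ {x} = E₀ ⊔ E₁`, so `Sh ∩ E₁ = Sh \ E₀` and `Sh ∩ E₀ = Sh \ E₁` are closed.  Three open sets cover `L`:
   `Xa = ball x ρ \ (Sh ∩ E₁)`,  `Xb = ball x ρ \ (Sh ∩ E₀)`,  `X1 = (closedBall x ρ')ᶜ`.
 `Xa ∩ X1 ⊆ E₀`, `Xb ∩ X1 ⊆ E₁`, `Xa ∩ Xb ⊆ ball x ρ'` misses `X1`: no triple intersection of the three different sets.
 Cocycle: `d Xb X1 = d X1 Xb = 1`, all other values `0`.  `Cech0.fintype` (index type `Fin 3`) gives `(Z α), r, c`.
 For `z ≠ x`, `z ∈ Z α` put `f z = c α` if `r α = X1`, and `f z = c α + u z` otherwise, where `u = 0` on `E₀`, `u = 1` on `E₁`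
 (if `r α ≠ X1` then `z ∈ ball x ρ \ {x} ⊆ E₀ ∪ E₁`).  This is well defined on overlaps and locally constant on `{x}ᶜ`, which is
 preconnected: `f` is constant `= c₀` (formally: the open sets `⋃` of the pieces where the value is `0`, resp. `1`, and
 `isPreconnected_iff_subset_of_disjoint`).  Now `x ∈ Z α` for some `α`, `r α ≠ X1`, and `u = c₀ + c α` on `Z α \ {x}`.  Take `W = Z α`.

(2) `s8_ext_label`.  Assume `q` is not constant on any punctured neighbourhood.  For `Σ ⊆ Λ` apply (1) to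
 `E₀ = (V \ {x}) ∩ q ⁻¹' Σ`, `E₁ = (V \ {x}) ∩ q ⁻¹' Σᶜ` (open since `q` is locally constant).  With `Σ = {λ}`: the first alternative contradicts the
 assumption, so every label `λ` is avoided on a punctured neighbourhood `W λ \ {x}`.  Choose inductively `z n ∈ V`, `z n ≠ x`, `dist (z n) x < 1/(n+1)`,
 `z n ∈ W (q (z i))` for `i < n` (such points exist: an empty punctured neighbourhood contradicts the assumption): the labels `q (z n)` are pairwise
 different.  `Σ = {q (z (2 n))}` contradicts (1).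
-/

set_option autoImplicit false

namespace Claimed.Agent.R309

open Filter Topology Set Metric

theorem s8e_fin3 : ∀ i j k : Fin 3, i ≠ j → j ≠ k → i ≠ k → ∀ t : Fin 3, t = i ∨ t = j ∨ t = k := by
  decide

theorem s8e_zmod2 : ∀ t : ZMod 2, t = 0 ∨ t = 1 := by decide

theorem s8e_add_self (t : ZMod 2) : t + t = 0 := CharTwo.add_self_eq_zero t

theorem s8e_eq_of_add {a b : ZMod 2} (h : a + b = 0) : a = b := by
  revert a b; decide

/-- the cocycle -/
def s8eD (i j : Fin 3) : ZMod 2 := if (i = 1 ∧ j = 2) ∨ (i = 2 ∧ j = 1) then 1 else 0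

theorem s8eD_self : ∀ i, s8eD i i = 0 := by decide

theorem s8eD_symm : ∀ i j, s8eD i j = s8eD j i := by decide

theorem s8eD_ne2 : ∀ i j, i ≠ 2 → j ≠ 2 → s8eD i j = 0 := by decide

/-- **Lemma 8.1**, two labels: a splitting of a punctured neighbourhood into two open sets is trivial near `x`. -/
theorem s8_ext_two {L : Type} [MetricSpace L] [CompactSpace L] (hc : Cech0 L) (x : L)
    (hcut : IsPreconnected ({x}ᶜ : Set L)) (V E₀ E₁ : Set L) (hV : IsOpen V) (hx : x ∈ V)
    (h0 : IsOpen E₀) (h1 : IsOpen E₁) (hd : Disjoint E₀ E₁) (hu : E₀ ∪ E₁ = V \ {x}) :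
    ∃ W ∈ 𝓝 x, W \ {x} ⊆ E₀ ∨ W \ {x} ⊆ E₁ := by
  classical
  obtain ⟨ρ, hρ, hρV⟩ : ∃ ρ > 0, closedBall x ρ ⊆ V := by
    obtain ⟨ε, hε, h⟩ := Metric.isOpen_iff.1 hV x hx
    exact ⟨ε / 2, half_pos hε, (closedBall_subset_ball (half_lt_self hε)).trans h⟩
  set ρ' := ρ / 2 with hρ'
  have hρ'0 : 0 < ρ' := half_pos hρ
  have hρ'ρ : ρ' < ρ := half_lt_self hρ
  have hE : ∀ z, dist z x ≤ ρ → z ≠ x → z ∈ E₀ ∨ z ∈ E₁ := by
    intro z hz hzx
    have : z ∈ V \ {x} := ⟨hρV (mem_closedBall.2 hz), hzx⟩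
    rw [← hu] at this
    exact this
  have hE01 : ∀ z, z ∈ E₀ → z ∈ E₁ → False := fun z h0 h1 => Set.disjoint_left.1 hd h0 h1
  have hxE0 : ∀ z ∈ E₀, z ≠ x := fun z hz => by
    have : z ∈ V \ {x} := hu ▸ (Or.inl hz : z ∈ E₀ ∪ E₁)
    exact this.2
  have hxE1 : ∀ z ∈ E₁, z ≠ x := fun z hz => by
    have : z ∈ V \ {x} := hu ▸ (Or.inr hz : z ∈ E₀ ∪ E₁)
    exact this.2
  set Sh : Set L := {y | ρ' ≤ dist y x ∧ dist y x ≤ ρ} with hShdef
  have hSh : IsClosed Sh :=
    (isClosed_le continuous_const (continuous_id.dist continuous_const)).inter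
      (isClosed_le (continuous_id.dist continuous_const) continuous_const)
  set Xa : Set L := ball x ρ \ (Sh \ E₀) with hXa
  set Xb : Set L := ball x ρ \ (Sh \ E₁) with hXb
  set X1 : Set L := (closedBall x ρ')ᶜ with hX1
  have hXao : IsOpen Xa := isOpen_ball.sdiff (hSh.sdiff h0)
  have hXbo : IsOpen Xb := isOpen_ball.sdiff (hSh.sdiff h1)
  have hX1o : IsOpen X1 := isClosed_closedBall.isOpen_compl
  have hXa1 : ∀ y ∈ Xa, y ∈ X1 → y ∈ E₀ := by
    intro y hy hy1
    by_contra hcon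
    have h2 : ρ' < dist y x := by
      have : ¬ dist y x ≤ ρ' := fun h => hy1 (mem_closedBall.2 h)
      exact not_le.1 this
    exact hy.2 ⟨⟨h2.le, (mem_ball.1 hy.1).le⟩, hcon⟩
  have hXb1 : ∀ y ∈ Xb, y ∈ X1 → y ∈ E₁ := by
    intro y hy hy1
    by_contra hcon
    have h2 : ρ' < dist y x := by
      have : ¬ dist y x ≤ ρ' := fun h => hy1 (mem_closedBall.2 h)
      exact not_le.1 this
    exact hy.2 ⟨⟨h2.le, (mem_ball.1 hy.1).le⟩, hcon⟩
  set U : Fin 3 → Set L := ![Xa, Xb, X1] with hU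
  have hU0 : U 0 = Xa := rfl
  have hU1 : U 1 = Xb := rfl
  have hU2 : U 2 = X1 := rfl
  have hUo : ∀ i, IsOpen (U i) := by
    intro i
    fin_cases i
    · exact hXao
    · exact hXbo
    · exact hX1o
  have hUc : (⋃ i, U i) = univ := by
    refine eq_univ_of_forall fun y => mem_iUnion.2 ?_
    by_cases hy : dist y x ≤ ρ'
    · have hyρ : dist y x < ρ := lt_of_le_of_lt hy hρ'ρ
      by_cases hyx : y = x
      · refine ⟨0, ?_⟩
        rw [hU0]
        refine ⟨mem_ball.2 hyρ, fun h => ?_⟩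
        have := h.1.1
        rw [hyx, dist_self] at this
        linarith
      · rcases hE y hyρ.le hyx with h | h
        · exact ⟨0, by rw [hU0]; exact ⟨mem_ball.2 hyρ, fun h' => h'.2 h⟩⟩
        · exact ⟨1, by rw [hU1]; exact ⟨mem_ball.2 hyρ, fun h' => h'.2 h⟩⟩
    · exact ⟨2, by rw [hU2]; exact fun h => hy (mem_closedBall.1 h)⟩
  obtain ⟨m, Z, r, c, hZo, hZc, hZr, hZd⟩ := hc.fintype U s8eD hUo hUc s8eD_self s8eD_symm (by
    rintro i j k ⟨y, ⟨hi, hj⟩, hk⟩
    by_cases hij : i = j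
    · subst hij
      rw [s8eD_self, zero_add, s8e_add_self]
    by_cases hjk : j = k
    · subst hjk
      rw [s8eD_self, add_zero, s8e_add_self]
    by_cases hik : i = k
    · subst hik
      rw [s8eD_self, add_zero, s8eD_symm j i, s8e_add_self]
    exfalso
    have hall : ∀ t, y ∈ U t := by
      intro t
      rcases s8e_fin3 i j k hij hjk hik t with rfl | rfl | rfl <;> assumption
    exact hE01 y (hXa1 y (hall 0) (hall 2)) (hXb1 y (hall 1) (hall 2)))
  -- the label `u` and the values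
  set u : L → ZMod 2 := fun z => if z ∈ E₁ then 1 else 0 with hudef
  have hu0 : ∀ z ∈ E₀, u z = 0 := fun z hz => if_neg fun h => hE01 z hz h
  have hu1 : ∀ z ∈ E₁, u z = 1 := fun z hz => if_pos hz
  set val : Fin m → L → ZMod 2 := fun a z => c a + (if r a = 2 then 0 else u z) with hval
  have hball : ∀ a, r a ≠ 2 → ∀ z ∈ Z a, dist z x < ρ := by
    intro a ha z hz
    have h2 := hZr a hz
    have h3 : r a = 0 ∨ r a = 1 := by
      generalize r a = t at ha
      revert t; decide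
    rcases h3 with h3 | h3
    · rw [h3, hU0] at h2
      exact mem_ball.1 h2.1
    · rw [h3, hU1] at h2
      exact mem_ball.1 h2.1
  -- well defined on overlaps
  have hwd1 : ∀ a b z, z ∈ Z a → z ∈ Z b → r a = 2 → val a z = val b z := by
    intro a b z hza hzb hra
    have hcab := hZd a b ⟨z, hza, hzb⟩
    have hz1 : z ∈ X1 := by
      have := hZr a hza
      rwa [hra, hU2] at this
    have hzb' := hZr b hzb
    rw [hval]
    simp only
    rw [if_pos hra, add_zero]
    have h3 : r b = 0 ∨ r b = 1 ∨ r b = 2 := by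
      generalize r b = t
      revert t; decide
    rcases h3 with h3 | h3 | h3
    · rw [h3, hU0] at hzb'
      rw [hra, h3] at hcab
      rw [if_neg (by rw [h3]; decide), hu0 z (hXa1 z hzb' hz1), add_zero]
      exact s8e_eq_of_add hcab
    · rw [h3, hU1] at hzb'
      rw [hra, h3] at hcab
      rw [if_neg (by rw [h3]; decide), hu1 z (hXb1 z hzb' hz1)]
      have h4 : s8eD 2 1 = 1 := by decide
      rw [h4] at hcab
      generalize c a = s at *
      generalize c b = t at *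
      revert s t; decide
    · rw [hra, h3] at hcab
      rw [if_pos h3, add_zero]
      exact s8e_eq_of_add hcab
  have hwd : ∀ a b z, z ∈ Z a → z ∈ Z b → val a z = val b z := by
    intro a b z hza hzb
    by_cases hra : r a = 2
    · exact hwd1 a b z hza hzb hra
    by_cases hrb : r b = 2
    · exact (hwd1 b a z hzb hza hrb).symm
    have hcab := hZd a b ⟨z, hza, hzb⟩
    rw [s8eD_ne2 _ _ hra hrb] at hcab
    rw [hval]
    simp only
    rw [if_neg hra, if_neg hrb, s8e_eq_of_add hcab]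
  -- the level sets are open
  set O : ZMod 2 → Set L := fun t => {z | z ≠ x ∧ ∃ a, z ∈ Z a ∧ val a z = t} with hO
  have hOo : ∀ t, IsOpen (O t) := by
    intro t
    rw [isOpen_iff_mem_nhds]
    rintro z ⟨hzx, a, hza, hvt⟩
    by_cases hra : r a = 2
    · have hN : Z a ∩ {x}ᶜ ∈ 𝓝 z :=
        inter_mem ((hZo a).mem_nhds hza) (isOpen_compl_singleton.mem_nhds hzx)
      refine mem_of_superset hN ?_
      rintro w ⟨hwa, hwx⟩
      refine ⟨hwx, a, hwa, ?_⟩
      rw [← hvt, hval]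
      simp only
      rw [if_pos hra, if_pos hra]
    · rcases hE z (hball a hra z hza).le hzx with hz | hz
      · have hN : Z a ∩ E₀ ∈ 𝓝 z := inter_mem ((hZo a).mem_nhds hza) (h0.mem_nhds hz)
        refine mem_of_superset hN ?_
        rintro w ⟨hwa, hw⟩
        refine ⟨hxE0 w hw, a, hwa, ?_⟩
        rw [← hvt, hval]
        simp only
        rw [if_neg hra, if_neg hra, hu0 w hw, hu0 z hz]
      · have hN : Z a ∩ E₁ ∈ 𝓝 z := inter_mem ((hZo a).mem_nhds hza) (h1.mem_nhds hz)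
        refine mem_of_superset hN ?_
        rintro w ⟨hwa, hw⟩
        refine ⟨hxE1 w hw, a, hwa, ?_⟩
        rw [← hvt, hval]
        simp only
        rw [if_neg hra, if_neg hra, hu1 w hw, hu1 z hz]
  have hOd : Disjoint (O 0) (O 1) := by
    rw [Set.disjoint_left]
    rintro z ⟨-, a, hza, hva⟩ ⟨-, b, hzb, hvb⟩
    have := hwd a b z hza hzb
    rw [hva, hvb] at this
    exact absurd this (by decide)
  have hOc : ({x}ᶜ : Set L) ⊆ O 0 ∪ O 1 := by
    intro z hz
    have : z ∈ ⋃ a, Z a := by rw [hZc]; trivial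
    obtain ⟨a, hza⟩ := mem_iUnion.1 this
    rcases s8e_zmod2 (val a z) with h | h
    · exact Or.inl ⟨hz, a, hza, h⟩
    · exact Or.inr ⟨hz, a, hza, h⟩
  obtain ⟨c₀, hc₀⟩ : ∃ c₀ : ZMod 2, ({x}ᶜ : Set L) ⊆ O c₀ := by
    rcases hcut.subset_or_subset (hOo 0) (hOo 1) hOd hOc with h | h
    · exact ⟨0, h⟩
    · exact ⟨1, h⟩
  -- conclusion
  have hxZ : x ∈ ⋃ a, Z a := by rw [hZc]; trivial
  obtain ⟨α, hxα⟩ := mem_iUnion.1 hxZ
  have hrα : r α ≠ 2 := by
    intro h
    have := hZr α hxα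
    rw [h, hU2] at this
    exact this (mem_closedBall_self hρ'0.le)
  have hconst : ∀ z ∈ Z α, z ≠ x → c α + u z = c₀ := by
    intro z hz hzx
    obtain ⟨-, b, hzb, hvb⟩ := hc₀ hzx
    have := hwd α b z hz hzb
    rw [hvb, hval] at this
    simp only at this
    rwa [if_neg hrα] at this
  refine ⟨Z α, (hZo α).mem_nhds hxα, ?_⟩
  by_cases hcc : c α = c₀
  · left
    rintro z ⟨hz, hzx⟩
    rcases hE z (hball α hrα z hz).le hzx with h | h
    · exact h
    · exfalso
      have := hconst z hz hzx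
      rw [hu1 z h, hcc] at this
      generalize c₀ = t at this
      revert t; decide
  · right
    rintro z ⟨hz, hzx⟩
    rcases hE z (hball α hrα z hz).le hzx with h | h
    · exfalso
      have := hconst z hz hzx
      rw [hu0 z h, add_zero] at this
      exact hcc this
    · exact h

/-- dichotomy for a set of labels -/
theorem s8e_dich {L : Type} [MetricSpace L] [CompactSpace L] (hc : Cech0 L) (x : L)
    (hcut : IsPreconnected ({x}ᶜ : Set L)) (V : Set L) (hV : IsOpen V) (hx : x ∈ V) {Λ : Type} (q : L → Λ)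
    (hq : ∀ y ∈ V, y ≠ x → ∀ᶠ y' in 𝓝 y, q y' = q y) (S : Set Λ) :
    ∃ W ∈ 𝓝 x, (∀ y ∈ W, y ≠ x → q y ∈ S) ∨ (∀ y ∈ W, y ≠ x → q y ∉ S) := by
  have hopen : ∀ T : Set Λ, IsOpen {y | y ∈ V ∧ y ≠ x ∧ q y ∈ T} := by
    intro T
    rw [isOpen_iff_mem_nhds]
    rintro y ⟨hyV, hyx, hyT⟩
    filter_upwards [hV.mem_nhds hyV, isOpen_compl_singleton.mem_nhds hyx, hq y hyV hyx]
      with y' h1 h2 h3
    exact ⟨h1, h2, by rw [h3]; exact hyT⟩
  obtain ⟨W, hW, h⟩ := s8_ext_two hc x hcut V {y | y ∈ V ∧ y ≠ x ∧ q y ∈ S}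
    {y | y ∈ V ∧ y ≠ x ∧ q y ∈ Sᶜ} hV hx (hopen S) (hopen Sᶜ) (by
      rw [Set.disjoint_left]
      rintro y ⟨-, -, h1⟩ ⟨-, -, h2⟩
      exact h2 h1) (by
      ext y
      constructor
      · rintro (⟨h1, h2, -⟩ | ⟨h1, h2, -⟩) <;> exact ⟨h1, h2⟩
      · rintro ⟨h1, h2⟩
        by_cases h3 : q y ∈ S
        · exact Or.inl ⟨h1, h2, h3⟩
        · exact Or.inr ⟨h1, h2, h3⟩)
  refine ⟨W, hW, ?_⟩
  rcases h with h | h
  · exact Or.inl fun y hy hyx => (h ⟨hy, hyx⟩).2.2
  · exact Or.inr fun y hy hyx => (h ⟨hy, hyx⟩).2.2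

/-- **Lemma 8.1**, arbitrary labels (this is the form used in Lemma 8.2): a map which is locally constant on a punctured neighbourhood of `x`
is constant on a smaller punctured neighbourhood. -/
theorem s8_ext_label {L : Type} [MetricSpace L] [CompactSpace L] (hc : Cech0 L) (x : L)
    (hcut : IsPreconnected ({x}ᶜ : Set L)) (V : Set L) (hV : IsOpen V) (hx : x ∈ V) {Λ : Type} (q : L → Λ)
    (hq : ∀ y ∈ V, y ≠ x → ∀ᶠ y' in 𝓝 y, q y' = q y) :
    ∃ W ∈ 𝓝 x, ∀ y ∈ W, ∀ y' ∈ W, y ≠ x → y' ≠ x → q y = q y' := by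
  classical
  by_contra hcon
  push Not at hcon
  -- every label is avoided near `x`
  have havoid : ∀ l : Λ, ∃ W ∈ 𝓝 x, ∀ y ∈ W, y ≠ x → q y ≠ l := by
    intro l
    obtain ⟨W, hW, h⟩ := s8e_dich hc x hcut V hV hx q hq {l}
    rcases h with h | h
    · exfalso
      obtain ⟨y, hy, y', hy', hyx, hy'x, hne⟩ := hcon W hW
      have h1 : q y = l := h y hy hyx
      have h2 : q y' = l := h y' hy' hy'x
      exact hne (h1.trans h2.symm)
    · exact ⟨W, hW, fun y hy hyx => h y hy hyx⟩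
  choose Wl hWl hWl' using havoid
  obtain ⟨f, hfP, hfr⟩ := exists_seq_of_forall_finset_exists (fun z : L => z ≠ x)
    (fun z z' => q z ≠ q z' ∧ dist z' x < dist z x / 2) (by
      intro s hs
      have hW : (⋂ z ∈ s, (Wl (q z) ∩ ball x (dist z x / 2))) ∈ 𝓝 x := by
        rw [Filter.biInter_finset_mem]
        intro z hz
        exact inter_mem (hWl _) (ball_mem_nhds x (half_pos (dist_pos.2 (hs z hz))))
      obtain ⟨y, hy, -, -, hyx, -, -⟩ := hcon _ hW
      refine ⟨y, hyx, fun z hz => ?_⟩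
      have := mem_iInter₂.1 hy z hz
      exact ⟨(hWl' (q z) y this.1 hyx).symm, mem_ball.1 this.2⟩)
  have hdist : ∀ n, dist (f n) x ≤ dist (f 0) x * (1 / 2) ^ n := by
    intro n
    induction n with
    | zero => simp
    | succ n ih =>
      have := (hfr n (n + 1) (Nat.lt_succ_self n)).2
      rw [pow_succ]
      linarith
  have htend : Tendsto f atTop (𝓝 x) := by
    rw [tendsto_iff_dist_tendsto_zero]
    refine squeeze_zero (fun _ => dist_nonneg) hdist ?_
    have := (tendsto_pow_atTop_nhds_zero_of_lt_one (r := (1 / 2 : ℝ)) (by norm_num)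
      (by norm_num)).const_mul (dist (f 0) x)
    simpa using this
  have hinj : ∀ m n, m ≠ n → q (f m) ≠ q (f n) := by
    intro m n hmn
    rcases lt_or_gt_of_ne hmn with h | h
    · exact (hfr m n h).1
    · exact (hfr n m h).1.symm
  obtain ⟨W, hW, h⟩ := s8e_dich hc x hcut V hV hx q hq {l | ∃ n, l = q (f (2 * n))}
  obtain ⟨N, hN⟩ := (htend.eventually hW).exists_forall_of_atTop
  rcases h with h | h
  · obtain ⟨n, hn⟩ := h (f (2 * N + 1)) (hN _ (by omega)) (hfP _)
    exact hinj _ _ (by omega) hn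
  · exact h (f (2 * N)) (hN _ (by omega)) (hfP _) ⟨N, rfl⟩

end Claimed.Agent.R309
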