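import Claimed.Agent.R309.S8.Defs
import Claimed.Agent.R309.S8.Ext

/-!
# Row 309, package **S8-Label**: Lemma 8.2 (`ann:component`), component labels

Statements: helper209.  OWNER = the seat that claims subtask `S8-Label`.  Keep the statements verbatim (tell helper209 if one is false or
awkward); helper lemmas with prefix `s8l_`.  Black boxes: `S8/Defs.lean` (S8-Basic), `S8/Ext.lean` (`s8_ext_label`).  ~700 lines.

The only statement with content is `label_core`; all others follow formally from it, from `om_acc` and from `Joined.symm/trans`.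

Proof of `label_core`.  As `x ∈ Ω_T` there is an open `W₀ ∋ x` with `(I \ T) ∩ W₀ ⊆ {x}`.
CASE 1: `x ∉ I \ T`.  Then `W₀` contains no deleted vertex.  `P.nearPath x W₀` gives `V`; a path with all vertices in `W₀` runs in `I ∩ W₀ ⊆ T`
 (`adj_mem`), so it is a path of `K[T]`.  Take `W = V`.   Deduce the whole API below for such points `x` (call them ordinary).
CASE 2: `x ∈ I \ T`.  Then `I ≠ range ι` (as `x ∈ L`), so `I ⊆ L` by `I_alt`, and `T ⊆ L`.  All points of `(W₀ ∩ L) \ {x}` are ordinary points of `Ω_T`,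
 so `y ↦ Q T y` is locally constant there (`Q_locconst` for ordinary points).  Apply `s8_ext_label` in the subtype `↥P.L`
 (`P.cech0_L`, `P.nocut_subtype`) to `q y = P.Q T y`, `Λ = Set P.Y`: there is a neighbourhood `W` of `x` (in `Y`; neighbourhoods in the subtype are traces,
 `mem_nhds_subtype` / `nhds_subtype_eq_comap`) such that `Q T` is constant on `(W ∩ L) \ {x}`.  Every `t ∈ T ∩ W` is `≠ x`, lies in `L`, is ordinary, and `t ∈ Q T t` (`Q_self`).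
 So all `t ∈ T ∩ W` lie in one set `Q T y`, and two elements of it are joined (`Q_joined`).
-/

set_option autoImplicit false

namespace Claimed.Agent.R309

open Filter Topology Set Metric

namespace PS

variable {P : PS}

/-- every point of `Ω_T` is an accumulation point of allowed vertices (`I_acc`, closure of a union) -/
theorem om_acc {T : Set P.Y} {x : P.Y} (hx : x ∈ P.Om T) : x ∈ closure ((T ∩ P.I) \ {x}) := by
  have h1 : x ∈ closure (P.I \ {x}) := P.I_acc x hx.1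
  have h2 : P.I \ {x} ⊆ ((T ∩ P.I) \ {x}) ∪ ((P.I \ T) \ {x}) := by
    rintro y ⟨hyI, hyx⟩
    by_cases hyT : y ∈ T
    · exact Or.inl ⟨⟨hyT, hyI⟩, hyx⟩
    · exact Or.inr ⟨⟨hyI, hyT⟩, hyx⟩
  have h3 := closure_mono h2 h1
  rw [closure_union] at h3
  exact h3.resolve_right hx.2

/-- an open neighbourhood of a point of `Ω_T` whose only deleted vertex is (possibly) the point itself -/
theorem s8l_om_nhd {T : Set P.Y} {x : P.Y} (hx : x ∈ P.Om T) :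
    ∃ W₀ : Set P.Y, IsOpen W₀ ∧ x ∈ W₀ ∧ ∀ y ∈ W₀, y ∈ P.I → y ∉ T → y = x := by
  refine ⟨(closure ((P.I \ T) \ {x}))ᶜ, isClosed_closure.isOpen_compl, hx.2, ?_⟩
  intro y hy hyI hyT
  by_contra hyx
  exact hy (subset_closure ⟨⟨hyI, hyT⟩, hyx⟩)

/-- ordinary points: no deleted vertex nearby -/
def s8lOrd (P : PS) (T : Set P.Y) (x : P.Y) : Prop :=
  x ∈ P.L ∧ ∃ W₀ : Set P.Y, IsOpen W₀ ∧ x ∈ W₀ ∧ ∀ y ∈ W₀, y ∈ P.I → y ∈ T

theorem s8lOrd.mem_om {T : Set P.Y} {x : P.Y} (h : s8lOrd P T x) : x ∈ P.Om T := by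
  obtain ⟨hxL, W₀, hW₀, hxW, hW⟩ := h
  refine ⟨hxL, fun hcl => ?_⟩
  obtain ⟨y, hyW, ⟨hyI, hyT⟩, -⟩ := mem_closure_iff.1 hcl W₀ hW₀ hxW
  exact hyT (hW y hyW hyI)

theorem s8lOrd.nhds {T : Set P.Y} {x : P.Y} (h : s8lOrd P T x) :
    ∀ᶠ y in 𝓝 x, y ∈ P.L → s8lOrd P T y := by
  obtain ⟨-, W₀, hW₀, hxW, hW⟩ := h
  filter_upwards [hW₀.mem_nhds hxW] with y hy hyL
  exact ⟨hyL, W₀, hW₀, hy, hW⟩

/-- near a point of `Ω_T` all other points of `L` are ordinary -/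
theorem s8l_ord_near {T : Set P.Y} {x : P.Y} (hx : x ∈ P.Om T) :
    ∀ᶠ y in 𝓝 x, y ∈ P.L → y ≠ x → s8lOrd P T y := by
  obtain ⟨W₀, hW₀, hxW, hW⟩ := s8l_om_nhd hx
  filter_upwards [hW₀.mem_nhds hxW] with y hy hyL hyx
  refine ⟨hyL, W₀ \ {x}, hW₀.sdiff isClosed_singleton, ⟨hy, hyx⟩, ?_⟩
  rintro z ⟨hzW, hzx⟩ hzI
  by_contra hzT
  exact hzx (hW z hzW hzI hzT)

/-- `Ω_T` is open in `L` -/
theorem om_open {T : Set P.Y} {x : P.Y} (hx : x ∈ P.Om T) : ∀ᶠ y in 𝓝 x, y ∈ P.L → y ∈ P.Om T := by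
  filter_upwards [s8l_ord_near hx] with y hy hyL
  by_cases hyx : y = x
  · rw [hyx]; exact hx
  · exact (hy hyL hyx).mem_om

/-- a point of `L` with a neighbourhood containing only finitely many deleted vertices lies in `Ω_T` -/
theorem mem_om_of_finite {T : Set P.Y} {x : P.Y} (hx : x ∈ P.L) {W : Set P.Y} (hW : W ∈ 𝓝 x)
    (hfin : ((P.I \ T) ∩ W).Finite) : x ∈ P.Om T := by
  refine ⟨hx, fun hcl => ?_⟩
  have hS : (((P.I \ T) ∩ W) \ {x}).Finite := hfin.subset sdiff_subset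
  have hN : W ∩ (((P.I \ T) ∩ W) \ {x})ᶜ ∈ 𝓝 x :=
    inter_mem hW (hS.isClosed.isOpen_compl.mem_nhds fun h => h.2 rfl)
  obtain ⟨y, ⟨hyW, hyS⟩, hyIT, hyx⟩ := mem_closure_iff_nhds.1 hcl _ hN
  exact hyS ⟨⟨hyIT, hyW⟩, hyx⟩

/-- the conclusion of `label_core` at the point `x` -/
def s8lCore (P : PS) (T : Set P.Y) (x : P.Y) : Prop :=
  ∃ W ∈ 𝓝 x, ∀ w ∈ T ∩ W, ∀ w' ∈ T ∩ W, P.Joined T w w'

theorem s8lOrd.core {T : Set P.Y} (hT : T ⊆ P.I) {x : P.Y} (h : s8lOrd P T x) : s8lCore P T x := by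
  obtain ⟨hxL, W₀, hW₀, hxW, hW⟩ := h
  obtain ⟨V, hV, hpath⟩ := P.nearPath x hxL W₀ (hW₀.mem_nhds hxW)
  refine ⟨V, hV, ?_⟩
  rintro w ⟨hwT, hwV⟩ w' ⟨hw'T, hw'V⟩
  unfold PS.Joined
  refine Relation.ReflTransGen.mono ?_ _ _ (hpath w ⟨hT hwT, hwV⟩ w' ⟨hT hw'T, hw'V⟩)
  rintro a b ⟨ha, hb, hab⟩
  exact ⟨hW a ha (P.adj_mem a b hab).1, hW b hb (P.adj_mem a b hab).2, hab⟩

theorem Q_subset (T : Set P.Y) (x : P.Y) : P.Q T x ⊆ T := fun _ hv => hv.1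

theorem Q_of_joined {T : Set P.Y} {x v w : P.Y} (hv : v ∈ P.Q T x) (h : P.Joined T v w) : w ∈ P.Q T x := by
  obtain ⟨hvT, W, hW, hWv⟩ := hv
  exact ⟨h.mem_right hvT, W, hW, fun w' hw' => (hWv w' hw').trans h⟩

theorem Q_joined {T : Set P.Y} {x v w : P.Y} (hx : x ∈ P.Om T) (hv : v ∈ P.Q T x) (hw : w ∈ P.Q T x) :
    P.Joined T v w := by
  obtain ⟨-, W, hW, hWv⟩ := hv
  obtain ⟨-, W', hW', hWw⟩ := hw
  obtain ⟨t, ⟨htW, htW'⟩, ⟨htT, -⟩, -⟩ := mem_closure_iff_nhds.1 (om_acc hx) _ (inter_mem hW hW')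
  exact (hWv t ⟨htT, htW⟩).symm.trans (hWw t ⟨htT, htW'⟩)

theorem s8l_Q_nhds {T : Set P.Y} {x : P.Y} (hc : s8lCore P T x) : ∀ᶠ y in 𝓝 x, y ∈ T → y ∈ P.Q T x := by
  obtain ⟨W, hW, h⟩ := hc
  filter_upwards [hW] with y hy hyT
  exact ⟨hyT, W, hW, fun w hw => h w hw y ⟨hyT, hy⟩⟩

/-- labels with a common vertex coincide -/
theorem Q_eq_of_mem {T : Set P.Y} {x y v : P.Y} (hx : x ∈ P.Om T) (hy : y ∈ P.Om T)
    (hvx : v ∈ P.Q T x) (hvy : v ∈ P.Q T y) : P.Q T x = P.Q T y := by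
  ext w
  exact ⟨fun hw => Q_of_joined hvy (Q_joined hx hvx hw), fun hw => Q_of_joined hvx (Q_joined hy hvy hw)⟩

theorem s8l_locconst {T : Set P.Y} {x : P.Y} (hx : x ∈ P.Om T)
    (hc : ∀ᶠ y in 𝓝 x, y ∈ P.L → s8lCore P T y) :
    ∀ᶠ y in 𝓝 x, y ∈ P.L → (y ∈ P.Om T ∧ P.Q T y = P.Q T x) := by
  have h1 := eventually_eventually_nhds.2 (s8l_Q_nhds (hc.self_of_nhds hx.1))
  filter_upwards [h1, hc, om_open hx] with y hy1 hyc hyo hyL
  refine ⟨hyo hyL, ?_⟩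
  have h2 := s8l_Q_nhds (hyc hyL)
  obtain ⟨t, ⟨ht1, ht2⟩, ⟨htT, -⟩, -⟩ :=
    mem_closure_iff_nhds.1 (om_acc (hyo hyL)) _ (inter_mem hy1 h2)
  exact Q_eq_of_mem (hyo hyL) hx (ht2 htT) (ht1 htT)

/-- **Lemma 8.2, core**: all allowed vertices near a point of `Ω_T` lie in one component of `K[T]`. -/
theorem label_core {T : Set P.Y} (hT : T ⊆ P.I) {x : P.Y} (hx : x ∈ P.Om T) :
    ∃ W ∈ 𝓝 x, ∀ w ∈ T ∩ W, ∀ w' ∈ T ∩ W, P.Joined T w w' := by
  obtain ⟨W₀, hW₀, hxW, hW⟩ := s8l_om_nhd hx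
  by_cases hxd : x ∈ P.I ∧ x ∉ T
  · -- CASE 2
    have hIL : P.I ⊆ P.L := by
      rcases P.I_alt with h | h
      · exfalso
        have : x ∈ range P.ι := h ▸ hxd.1
        exact hx.1 this
      · exact h
    have hord : ∀ y ∈ W₀, y ∈ P.L → y ≠ x → s8lOrd P T y := by
      intro y hy hyL hyx
      refine ⟨hyL, W₀ \ {x}, hW₀.sdiff isClosed_singleton, ⟨hy, hyx⟩, ?_⟩
      rintro z ⟨hzW, hzx⟩ hzI
      by_contra hzT
      exact hzx (hW z hzW hzI hzT)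
    obtain ⟨W', hW', hconst⟩ := s8_ext_label P.cech0_L (⟨x, hx.1⟩ : P.L) (P.nocut_subtype _)
      (Subtype.val ⁻¹' W₀) (hW₀.preimage continuous_subtype_val) hxW (fun y : P.L => P.Q T y.1) (by
        intro y hy hyx
        have ho : s8lOrd P T y.1 := hord y.1 hy y.2 fun h => hyx (Subtype.ext h)
        have h1 := s8l_locconst ho.mem_om (ho.nhds.mono fun z hz hzL => (hz hzL).core hT)
        have h2 := (continuous_subtype_val.tendsto y).eventually h1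
        filter_upwards [h2] with z hz
        exact (hz z.2).2)
    obtain ⟨u, hu, huW⟩ := mem_nhds_subtype _ _ _ |>.1 hW'
    refine ⟨u ∩ W₀, inter_mem hu (hW₀.mem_nhds hxW), ?_⟩
    rintro t ⟨htT, htu, htW⟩ t' ⟨ht'T, ht'u, ht'W⟩
    have htx : t ≠ x := fun h => hxd.2 (h ▸ htT)
    have ht'x : t' ≠ x := fun h => hxd.2 (h ▸ ht'T)
    have htL : t ∈ P.L := hIL (hT htT)
    have ht'L : t' ∈ P.L := hIL (hT ht'T)
    have heq : P.Q T t = P.Q T t' := hconst ⟨t, htL⟩ (huW htu) ⟨t', ht'L⟩ (huW ht'u)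
      (fun h => htx (congrArg Subtype.val h)) (fun h => ht'x (congrArg Subtype.val h))
    have ho := hord t htW htL htx
    have ho' := hord t' ht'W ht'L ht'x
    have h1 : t ∈ P.Q T t := (s8l_Q_nhds (ho.core hT)).self_of_nhds htT
    have h2 : t' ∈ P.Q T t := heq ▸ (s8l_Q_nhds (ho'.core hT)).self_of_nhds ht'T
    exact Q_joined ho.mem_om h1 h2
  · -- CASE 1
    have ho : s8lOrd P T x := by
      refine ⟨hx.1, W₀, hW₀, hxW, ?_⟩
      intro y hy hyI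
      by_contra hyT
      have := hW y hy hyI hyT
      exact hxd ⟨this ▸ hyI, this ▸ hyT⟩
    exact ho.core hT

/-- all allowed vertices near `x` belong to `Q_T(x)` -/
theorem Q_nhds {T : Set P.Y} (hT : T ⊆ P.I) {x : P.Y} (hx : x ∈ P.Om T) : ∀ᶠ y in 𝓝 x, y ∈ T → y ∈ P.Q T x :=
  s8l_Q_nhds (label_core hT hx)

/-- `x` is approached by distinct vertices with label `Q_T(x)` -/
theorem Q_acc {T : Set P.Y} (hT : T ⊆ P.I) {x : P.Y} (hx : x ∈ P.Om T) : x ∈ closure (P.Q T x \ {x}) := by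
  rw [mem_closure_iff_nhds]
  intro N hN
  obtain ⟨t, ⟨htN, htQ⟩, ⟨htT, -⟩, htx⟩ :=
    mem_closure_iff_nhds.1 (om_acc hx) _ (inter_mem hN (Q_nhds hT hx))
  exact ⟨t, htN, htQ htT, htx⟩

theorem Q_nonempty {T : Set P.Y} (hT : T ⊆ P.I) {x : P.Y} (hx : x ∈ P.Om T) : (P.Q T x).Nonempty := by
  obtain ⟨t, -, ht, -⟩ := mem_closure_iff_nhds.1 (Q_acc hT hx) univ univ_mem
  exact ⟨t, ht⟩

theorem Q_self {T : Set P.Y} (hT : T ⊆ P.I) {x : P.Y} (hx : x ∈ P.Om T) (hxT : x ∈ T) : x ∈ P.Q T x :=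
  (Q_nhds hT hx).self_of_nhds hxT

/-- the label is locally constant on `Ω_T` -/
theorem Q_locconst {T : Set P.Y} (hT : T ⊆ P.I) {x : P.Y} (hx : x ∈ P.Om T) :
    ∀ᶠ y in 𝓝 x, y ∈ P.L → (y ∈ P.Om T ∧ P.Q T y = P.Q T x) :=
  s8l_locconst hx ((om_open hx).mono fun _ hy hyL => label_core hT (hy hyL))

/-- **transport of labels**: if `g T ⊆ T'` then `g Q_T(x) ⊆ Q_{T'}(g x)`.
Proof: by `Q_nhds` at `g x` (pulled back by the continuous map `g`), `Q_nhds` at `x` and `om_acc` there is `t ∈ Q T x` with `g t ∈ Q T' (g x)`;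
`Joined T t v` (`Q_joined`) gives `Joined T' (g t) (g v)` (`Joined.smul`); conclude by `Q_of_joined`. -/
theorem Q_transport {T T' : Set P.Y} (hT : T ⊆ P.I) (hT' : T' ⊆ P.I) (g : P.H) (hg : ∀ t ∈ T, g • t ∈ T')
    {x : P.Y} (hx : x ∈ P.Om T) (hx' : g • x ∈ P.Om T') {v : P.Y} (hv : v ∈ P.Q T x) : g • v ∈ P.Q T' (g • x) := by
  have h1 := ((P.act_cont g).tendsto x).eventually (Q_nhds hT' hx')
  obtain ⟨t, ⟨ht1, ht2⟩, ⟨htT, -⟩, -⟩ :=
    mem_closure_iff_nhds.1 (om_acc hx) _ (inter_mem h1 (Q_nhds hT hx))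
  exact Q_of_joined (ht1 (hg t htT)) ((Q_joined hx (ht2 htT) hv).smul g hg)

/-- equal labels are transported to equal labels -/
theorem Q_transport_eq {T T' : Set P.Y} (hT : T ⊆ P.I) (hT' : T' ⊆ P.I) (g : P.H) (hg : ∀ t ∈ T, g • t ∈ T')
    {x y : P.Y} (hx : x ∈ P.Om T) (hy : y ∈ P.Om T) (hx' : g • x ∈ P.Om T') (hy' : g • y ∈ P.Om T')
    (h : P.Q T x = P.Q T y) : P.Q T' (g • x) = P.Q T' (g • y) := by
  obtain ⟨v, hv⟩ := Q_nonempty hT hx
  exact Q_eq_of_mem hx' hy' (Q_transport hT hT' g hg hx hx' hv) (Q_transport hT hT' g hg hy hy' (h ▸ hv))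

/-- monotonicity (`g = 1` in `Q_transport`) -/
theorem Q_mono {T T' : Set P.Y} (hT : T ⊆ P.I) (hT' : T' ⊆ P.I) (hTT' : T ⊆ T') {x : P.Y} (hx : x ∈ P.Om T)
    (hx' : x ∈ P.Om T') : P.Q T x ⊆ P.Q T' x := by
  intro v hv
  have := Q_transport hT hT' (1 : P.H) (fun t ht => by rw [one_smul]; exact hTT' ht) hx
    (by rw [one_smul]; exact hx') hv
  rwa [one_smul, one_smul] at this

end PS

end Claimed.Agent.R309
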